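import Mathlib

/-!
Ordered copies of a binary pattern in a binary square matrix (problem P037).
-/

namespace Vale.Agent.P037

/-- `r`, `c` is an ordered copy of `H` in `A`: strictly increasing row and column choices that
match every entry, zeros as well as ones. -/
def IsCopy {k n : ℕ} (H : Fin k → Fin k → Bool) (A : Fin n → Fin n → Bool)
    (r c : Fin k → Fin n) : Prop :=
  StrictMono r ∧ StrictMono c ∧ ∀ i j, A (r i) (c j) = H i j

/-- The number of ordered copies of `H` in `A`. -/
noncomputable def copyCount {k n : ℕ} (H : Fin k → Fin k → Bool) (A : Fin n → Fin n → Bool) : ℕ :=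
  Nat.card {p : (Fin k → Fin n) × (Fin k → Fin n) // IsCopy H A p.1 p.2}

/-- `A` contains no ordered copy of `H`. -/
def IsFree {k n : ℕ} (H : Fin k → Fin k → Bool) (A : Fin n → Fin n → Bool) : Prop :=
  ∀ r c, ¬ IsCopy H A r c

/-- The number of entries in which `A` and `B` differ. -/
noncomputable def diffCount {n : ℕ} (A B : Fin n → Fin n → Bool) : ℕ :=
  Nat.card {p : Fin n × Fin n // A p.1 p.2 ≠ B p.1 p.2}

/-- `A` is `ε`-far from being `H`-free. -/
def Far {k n : ℕ} (H : Fin k → Fin k → Bool) (A : Fin n → Fin n → Bool) (ε : ℝ) : Prop :=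
  ∀ B : Fin n → Fin n → Bool, IsFree H B → ε * (n : ℝ) ^ 2 ≤ (diffCount A B : ℝ)

end Vale.Agent.P037
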