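import Mathlib

/-!
The parameters of the removal bound and their growth in `e = ⌈1/ε⌉`.
-/

namespace Vale.Agent.P037

/-- Precision of the coarse nets. -/
def coarseR (k e : ℕ) : ℕ := 2560 * (k + 1) ^ 2 * e

/-- Size of the coarse nets. -/
def coarseM (C₀ k e : ℕ) : ℕ := C₀ * coarseR k e ^ C₀

/-- Precision of the fine nets at depth `l`. -/
def fineR (C₀ k e l : ℕ) : ℕ :=
  25600000 * k ^ 2 * (k + 1) ^ 2 * e ^ 3 * coarseM C₀ k e ^ 2 * (k + 1) ^ (2 * l)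

/-- Size factor of the pairs of coarse and fine nets. -/
def sizeX (C₀ k e : ℕ) : ℕ :=
  coarseM C₀ k e * (C₀ * (25600000 * k ^ 2 * (k + 1) ^ 2 * e ^ 3 * coarseM C₀ k e ^ 2) ^ C₀)

/-- Growth factor of a segment of depths. -/
def growQ (C₀ k e : ℕ) : ℕ := 2560 * (k + 1) * e * (1 + sizeX C₀ k e + 2 * C₀ * (k + 1))

/-- Number of segments. -/
def numJ (C₀ k e : ℕ) : ℕ := 1600 * coarseM C₀ k e * e ^ 2

/-- The largest depth. -/
def depthD (C₀ k e : ℕ) : ℕ := (growQ C₀ k e + 1) ^ numJ C₀ k e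

/-- The reciprocal of the copy density. -/
def loss (C₀ k e : ℕ) : ℕ :=
  10 * e * (200 * (k + 1) * (sizeX C₀ k e * (k + 1) ^ (2 * C₀ * depthD C₀ k e))
    * (k + 1) ^ depthD C₀ k e * e) ^ (2 * k)

theorem fine_size (C₀ k e l : ℕ) :
    coarseM C₀ k e * (C₀ * fineR C₀ k e l ^ C₀)
      = sizeX C₀ k e * (k + 1) ^ (2 * C₀ * l) := by
  rw [fineR, sizeX, mul_pow _ ((k + 1) ^ (2 * l)), ← pow_mul]
  ring

/-- Bounded by a polynomial. -/
def PolyB (f : ℕ → ℕ) : Prop := ∃ a E : ℕ, ∀ e, 1 ≤ e → f e ≤ a * e ^ E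

theorem PolyB.const (c : ℕ) : PolyB fun _ => c := ⟨c, 0, fun e _ => by simp⟩

theorem PolyB.id : PolyB fun e => e := ⟨1, 1, fun e _ => by simp⟩

theorem PolyB.mul {f g : ℕ → ℕ} (hf : PolyB f) (hg : PolyB g) : PolyB fun e => f e * g e := by
  obtain ⟨a, E, hf⟩ := hf
  obtain ⟨a', E', hg⟩ := hg
  refine ⟨a * a', E + E', fun e he => ?_⟩
  calc f e * g e ≤ (a * e ^ E) * (a' * e ^ E') := Nat.mul_le_mul (hf e he) (hg e he)
    _ = _ := by ring

theorem PolyB.add {f g : ℕ → ℕ} (hf : PolyB f) (hg : PolyB g) : PolyB fun e => f e + g e := by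
  obtain ⟨a, E, hf⟩ := hf
  obtain ⟨a', E', hg⟩ := hg
  refine ⟨a + a', E + E', fun e he => ?_⟩
  rw [add_mul]
  refine Nat.add_le_add ((hf e he).trans ?_) ((hg e he).trans ?_)
  · exact Nat.mul_le_mul_left _ (Nat.pow_le_pow_right he (by omega))
  · exact Nat.mul_le_mul_left _ (Nat.pow_le_pow_right he (by omega))

theorem PolyB.pow {f : ℕ → ℕ} (hf : PolyB f) (c : ℕ) : PolyB fun e => f e ^ c := by
  obtain ⟨a, E, hf⟩ := hf
  refine ⟨a ^ c, E * c, fun e he => ?_⟩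
  rw [pow_mul, ← mul_pow]
  exact Nat.pow_le_pow_left (hf e he) c

theorem polyB_coarseM (C₀ k : ℕ) : PolyB (coarseM C₀ k) :=
  (PolyB.const C₀).mul (((PolyB.const (2560 * (k + 1) ^ 2)).mul PolyB.id).pow C₀)

theorem polyB_sizeX (C₀ k : ℕ) : PolyB (sizeX C₀ k) :=
  (polyB_coarseM C₀ k).mul ((PolyB.const C₀).mul
    ((((PolyB.const (25600000 * k ^ 2 * (k + 1) ^ 2)).mul (PolyB.id.pow 3)).mul
      ((polyB_coarseM C₀ k).pow 2)).pow C₀))

theorem polyB_growQ (C₀ k : ℕ) : PolyB (growQ C₀ k) :=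
  (((PolyB.const (2560 * (k + 1))).mul PolyB.id)).mul
    (((PolyB.const 1).add (polyB_sizeX C₀ k)).add (PolyB.const (2 * C₀ * (k + 1))))

theorem polyB_numJ (C₀ k : ℕ) : PolyB (numJ C₀ k) :=
  ((PolyB.const 1600).mul (polyB_coarseM C₀ k)).mul (PolyB.id.pow 2)

theorem cast_le_exp (y : ℕ) : (y : ℝ) ≤ Real.exp y := by
  linarith [Real.add_one_le_exp (y : ℝ)]

theorem cast_pow_le_exp (y c : ℕ) : ((y ^ c : ℕ) : ℝ) ≤ Real.exp ((y * c : ℕ) : ℝ) := by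
  push_cast
  refine (pow_le_pow_left₀ (Nat.cast_nonneg y) (cast_le_exp y) c).trans (le_of_eq ?_)
  rw [← Real.exp_nat_mul, mul_comm]

/-- The loss is doubly exponential in a polynomial. -/
theorem exists_loss_le (C₀ k : ℕ) : ∃ C : ℕ, 1 ≤ C ∧ ∀ e : ℕ, 1 ≤ e →
    (loss C₀ k e : ℝ) ≤ Real.exp (Real.exp ((C * e ^ C : ℕ) : ℝ)) := by
  set P : ℕ → ℕ := fun e => 10 * e + 2 * k * (200 * (k + 1) * sizeX C₀ k e * e)
    + 2 * k * ((2 * C₀ + 1) * (k + 1)) with hP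
  set F : ℕ → ℕ := fun e => (growQ C₀ k e + 1) * numJ C₀ k e with hF
  have hPF : PolyB fun e => P e + F e :=
    ((((PolyB.const 10).mul PolyB.id).add ((PolyB.const (2 * k)).mul
      (((PolyB.const (200 * (k + 1))).mul (polyB_sizeX C₀ k)).mul PolyB.id))).add
        (PolyB.const _)).add (((polyB_growQ C₀ k).add (PolyB.const 1)).mul (polyB_numJ C₀ k))
  obtain ⟨a, E, hPF⟩ := hPF
  refine ⟨a + E + 1, by omega, fun e he => ?_⟩
  have hbound : ((P e + F e : ℕ) : ℝ) ≤ (((a + E + 1) * e ^ (a + E + 1) : ℕ) : ℝ) := by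
    exact_mod_cast (hPF e he).trans (Nat.mul_le_mul (by omega) (Nat.pow_le_pow_right he (by omega)))
  have hD : (depthD C₀ k e : ℝ) ≤ Real.exp (F e : ℕ) := cast_pow_le_exp _ _
  have hstep : (loss C₀ k e : ℝ) ≤ Real.exp (((P e : ℕ) : ℝ) * Real.exp (F e : ℕ)) := by
    set D := depthD C₀ k e
    set X := sizeX C₀ k e
    have h1 : ((200 * (k + 1) * (X * (k + 1) ^ (2 * C₀ * D)) * (k + 1) ^ D * e : ℕ) : ℝ)
        ≤ Real.exp ((200 * (k + 1) * X * e + (k + 1) * ((2 * C₀ + 1) * D) : ℕ) : ℝ) := by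
      have e1 : 200 * (k + 1) * (X * (k + 1) ^ (2 * C₀ * D)) * (k + 1) ^ D * e
          = (200 * (k + 1) * X * e) * (k + 1) ^ ((2 * C₀ + 1) * D) := by
        rw [add_mul, one_mul, pow_add]; ring
      rw [e1, Nat.cast_mul, Nat.cast_add, Real.exp_add]
      exact mul_le_mul (cast_le_exp _) (cast_pow_le_exp _ _) (Nat.cast_nonneg _)
        (Real.exp_pos _).le
    have h2 : (loss C₀ k e : ℝ) ≤ Real.exp ((10 * e : ℕ) : ℝ)
        * Real.exp ((200 * (k + 1) * X * e + (k + 1) * ((2 * C₀ + 1) * D) : ℕ) : ℝ) ^ (2 * k) := by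
      rw [loss, Nat.cast_mul, Nat.cast_pow]
      exact mul_le_mul (cast_le_exp _) (pow_le_pow_left₀ (Nat.cast_nonneg _) h1 _) (by positivity)
        (Real.exp_pos _).le
    refine h2.trans ?_
    rw [← Real.exp_nat_mul, ← Real.exp_add]
    apply Real.exp_le_exp.2
    have hone : (1 : ℝ) ≤ Real.exp (F e : ℕ) := Real.one_le_exp (Nat.cast_nonneg _)
    have hu : ((10 * e + 2 * k * (200 * (k + 1) * X * e) : ℕ) : ℝ)
        ≤ ((10 * e + 2 * k * (200 * (k + 1) * X * e) : ℕ) : ℝ) * Real.exp (F e : ℕ) :=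
      le_mul_of_one_le_right (Nat.cast_nonneg _) hone
    have hv : ((2 * k * ((2 * C₀ + 1) * (k + 1)) : ℕ) : ℝ) * D
        ≤ ((2 * k * ((2 * C₀ + 1) * (k + 1)) : ℕ) : ℝ) * Real.exp (F e : ℕ) :=
      mul_le_mul_of_nonneg_left hD (Nat.cast_nonneg _)
    simp only [P, X] at hu hv ⊢
    push_cast at hu hv ⊢
    linarith
  refine hstep.trans (Real.exp_le_exp.2 ?_)
  calc ((P e : ℕ) : ℝ) * Real.exp (F e : ℕ) ≤ Real.exp (P e : ℕ) * Real.exp (F e : ℕ) :=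
        mul_le_mul_of_nonneg_right (cast_le_exp _) (Real.exp_pos _).le
    _ = Real.exp ((P e + F e : ℕ) : ℝ) := by rw [← Real.exp_add, ← Nat.cast_add]
    _ ≤ _ := Real.exp_le_exp.2 hbound

end Vale.Agent.P037
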