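import Vale.Agent.P037.Scale
import Vale.Agent.P037.Params

/-!
Choice of the scale and the doubly exponential removal bound.
-/

namespace Vale.Agent.P037

open Finset

theorem copyCount_transpose {k n : ℕ} (H : Fin k → Fin k → Bool) (A : Fin n → Fin n → Bool) :
    copyCount (fun j i => H i j) (fun c r => A r c) = copyCount H A := by
  refine Nat.card_congr (Equiv.subtypeEquiv (Equiv.prodComm _ _) ?_)
  rintro ⟨c, r⟩
  exact ⟨fun ⟨h1, h2, h3⟩ => ⟨h2, h1, fun i j => h3 j i⟩,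
    fun ⟨h1, h2, h3⟩ => ⟨h2, h1, fun i j => h3 j i⟩⟩

theorem copyCount_pos {k n : ℕ} (hn : 0 < n) {H : Fin k → Fin k → Bool}
    {A : Fin n → Fin n → Bool} {ε : ℝ} (hε : 0 < ε) (hfar : Far H A ε) :
    1 ≤ copyCount H A := by
  classical
  by_contra h
  rw [Nat.not_le, Nat.lt_one_iff, copyCount, Nat.card_eq_fintype_card, Fintype.card_eq_zero_iff]
    at h
  have hd := hfar A fun r c hc => h.false ⟨(r, c), hc⟩
  have h0 : diffCount A A = 0 := by simp [diffCount]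
  rw [h0, Nat.cast_zero] at hd
  have : 0 < ε * (n : ℝ) ^ 2 := by positivity
  linarith

/-- A segment of depths on which the energy grows little, and a depth in it with small loss of
entropy. -/
theorem exists_scale {n b : ℕ} (hn : 0 < n) (hb : 0 < b) (τ τc : Fin n → Fin n) {J Q : ℕ}
    (hJ : 0 < J) (hbound : b ^ ((Q + 1) ^ J) ≤ n) :
    ∃ l L : ℕ, L = Q * (l + 1) ∧ l + L ≤ (Q + 1) ^ J ∧
      (energy (b ^ l * b ^ L) τ - energy (b ^ l) τ
        + (energy (b ^ l * b ^ L) τc - energy (b ^ l) τc)) * J ≤ 4 * (n : ℝ) ^ 2 := by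
  set ell : ℕ → ℕ := fun j => (Q + 1) ^ j - 1 with hell
  have hell1 : ∀ j, ell j + 1 = (Q + 1) ^ j := fun j => by
    have : 1 ≤ (Q + 1) ^ j := Nat.one_le_pow _ _ (by omega)
    simp only [ell]; omega
  have hsucc : ∀ j, ell j + Q * (ell j + 1) = ell (j + 1) := fun j => by
    have h1 := hell1 j
    have h2 := hell1 (j + 1)
    rw [pow_succ, ← h1] at h2
    have : (ell j + 1) * (Q + 1) = Q * (ell j + 1) + ell j + 1 := by ring
    omega
  set g : ℕ → ℝ := fun j => energy (b ^ ell j) τ + energy (b ^ ell j) τc with hg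
  have htel : ∑ j ∈ range J, (g (j + 1) - g j) ≤ ∑ _j ∈ range J, 4 * (n : ℝ) ^ 2 / J := by
    rw [Finset.sum_range_sub, Finset.sum_const, Finset.card_range, nsmul_eq_mul]
    have hle : b ^ ell J ≤ n := le_trans (Nat.pow_le_pow_right hb (Nat.sub_le _ _)) hbound
    have hp : 0 < b ^ ell J := by positivity
    have h1 := energy_le hp hle τ
    have h2 := energy_le hp hle τc
    have h3 : 0 ≤ g 0 := add_nonneg (energy_nonneg _ _) (energy_nonneg _ _)
    rw [mul_div_cancel₀ _ (by positivity)]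
    simp only [g] at h3 ⊢
    linarith
  obtain ⟨j, hj, hgj⟩ := Finset.exists_le_of_sum_le ⟨0, Finset.mem_range.2 hJ⟩ htel
  refine ⟨ell j, Q * (ell j + 1), rfl, ?_, ?_⟩
  · rw [hsucc]
    exact le_trans (Nat.sub_le _ _)
      (Nat.pow_le_pow_right (by omega) (Finset.mem_range.1 hj))
  · rw [← pow_add, hsucc]
    rw [le_div_iff₀ (by exact_mod_cast hJ)] at hgj
    simp only [g] at hgj
    linarith

/-- A depth in a segment with small loss of entropy for both labellings. -/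
theorem exists_depth {n b B L m : ℕ} {ι : Type*} [DecidableEq ι] (hn : 0 < n) (hb : 0 < b)
    (hB : 0 < B) (hBn : B * b ^ L ≤ n) (hL : 0 < L) (σ σc : Fin n → ι) (hm : 0 < m)
    (hσ : (labels σ).card ≤ m) (hσc : (labels σc).card ≤ m) :
    ∃ i < L, (nonspan b (B * b ^ i) σ + nonspan b (B * b ^ i) σc) * L
      ≤ 32 * b * (n * (1 + Real.log m)) := by
  have hp : 0 < B * b ^ L := by positivity
  have hs : ∀ σ : Fin n → ι, (labels σ).card ≤ m →
      ∑ i ∈ range L, nonspan b (B * b ^ i) σ ≤ 16 * b * (n * (1 + Real.log m)) := by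
    intro σ hσ
    refine (sum_nonspan_le hn hB hb σ L).trans (mul_le_mul_of_nonneg_left ?_ (by positivity))
    have h1 := ent_le hn hp hBn σ
    have h2 := le_ent hn hB σ hm hσ
    have h3 : (n : ℝ) * Real.log 2 ≤ n * 1 :=
      mul_le_mul_of_nonneg_left (by linarith [Real.log_two_lt_d9]) (Nat.cast_nonneg _)
    linarith
  have htot : ∑ i ∈ range L, (nonspan b (B * b ^ i) σ + nonspan b (B * b ^ i) σc)
      ≤ ∑ _i ∈ range L, 32 * b * ((n : ℝ) * (1 + Real.log m)) / L := by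
    rw [Finset.sum_add_distrib, Finset.sum_const, Finset.card_range, nsmul_eq_mul,
      mul_div_cancel₀ _ (by positivity)]
    linarith [hs σ hσ, hs σc hσc]
  obtain ⟨i, hi, h⟩ := Finset.exists_le_of_sum_le ⟨0, Finset.mem_range.2 hL⟩ htot
  exact ⟨i, Finset.mem_range.1 hi, (le_div_iff₀ (by exact_mod_cast hL)).1 h⟩

theorem energy_term {J m₀ e : ℕ} {n x y : ℝ} (hn : 0 ≤ n) (he : 0 < e)
    (hJ : J = 1600 * m₀ * e ^ 2) (hxy : x ≤ y) (hy : y * J ≤ 4 * n ^ 2) :
    2 * Real.sqrt (m₀ * x) ≤ n / (10 * e) := by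
  have he' : (0 : ℝ) < e := by exact_mod_cast he
  have h1 : Real.sqrt (m₀ * x) ≤ n / (20 * e) := by
    rw [Real.sqrt_le_left (by positivity), div_pow, le_div_iff₀ (by positivity)]
    have h := (mul_le_mul_of_nonneg_right hxy (Nat.cast_nonneg J)).trans hy
    rw [hJ] at h
    push_cast at h
    linarith
  have : n / (10 * e) = 2 * (n / (20 * e)) := by field_simp; ring
  linarith

theorem entropy_term {b e X C₀ l L : ℕ} {n x y : ℝ} (hn : 0 ≤ n) (hb : 0 < b) (he : 0 < e)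
    (hX : 0 < X) (hL : L = 2560 * b * e * (1 + X + 2 * C₀ * b) * (l + 1))
    (h : (x + y) * L ≤ 32 * b * (n * (1 + Real.log (((X * b ^ (2 * C₀ * l) : ℕ)) : ℝ)))) :
    4 * x + 4 * y ≤ n / (20 * e) := by
  set W : ℝ := (X : ℝ) + 2 * C₀ * b with hW
  have hW0 : 0 ≤ W := by positivity
  have hX' : (0 : ℝ) < X := by exact_mod_cast hX
  have hb' : (0 : ℝ) < b := by exact_mod_cast hb
  have hlog : Real.log (((X * b ^ (2 * C₀ * l) : ℕ)) : ℝ) ≤ W * ((l : ℝ) + 1) := by
    rw [Nat.cast_mul, Nat.cast_pow, Real.log_mul hX'.ne' (by positivity), Real.log_pow]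
    have h1 := Real.log_le_self hX'.le
    have h2 : ((2 * C₀ * l : ℕ) : ℝ) * Real.log b ≤ ((2 * C₀ * l : ℕ) : ℝ) * b :=
      mul_le_mul_of_nonneg_left (Real.log_le_self hb'.le) (Nat.cast_nonneg _)
    have h3 : (0 : ℝ) ≤ X * l := by positivity
    have h4 : (0 : ℝ) ≤ 2 * C₀ * b := by positivity
    push_cast at h2 ⊢
    rw [hW]
    linarith
  have hl : (0 : ℝ) ≤ l := Nat.cast_nonneg _
  have h6 := h.trans (mul_le_mul_of_nonneg_left (mul_le_mul_of_nonneg_left
    (show 1 + Real.log _ ≤ (1 + W) * ((l : ℝ) + 1) by linarith) hn) (by positivity))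
  have hLR : (L : ℝ) = 2560 * b * e * (1 + W) * ((l : ℝ) + 1) := by
    rw [hL, hW]; push_cast; ring
  rw [hLR] at h6
  rw [le_div_iff₀ (by positivity)]
  have hpos : (0 : ℝ) < 32 * b * ((1 + W) * ((l : ℝ) + 1)) := by positivity
  refine le_of_mul_le_mul_left ?_ hpos
  linarith

theorem coarse_term {b e R : ℕ} {n x y : ℝ} (hn : 0 < n) (he : 0 < e)
    (hR : R = 2560 * b ^ 2 * e) (hx : R * x ≤ n ^ 2) (hy : R * y ≤ n ^ 2) :
    2 * ((8 * (b : ℝ)) * (8 * b)) * (x + y) / n ^ 2 ≤ 1 / (10 * e) := by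
  rw [div_le_div_iff₀ (by positivity) (by positivity)]
  rw [hR] at hx hy
  push_cast at hx hy
  linarith

theorem fine_term {k b e m₀ B R : ℕ} {n x y : ℝ} (hn : 0 < n) (he : 0 < e)
    (hR : R = 25600000 * k ^ 2 * b ^ 2 * e ^ 3 * m₀ ^ 2 * B ^ 2)
    (hx : R * x ≤ n ^ 2) (hy : R * y ≤ n ^ 2) :
    (k : ℝ) ^ 2 * ((8 * b / (1 / (100 * (e : ℝ)) * n / (m₀ * B)))
      * (8 * b / (1 / (100 * (e : ℝ)) * n / (m₀ * B)))) * (2 * (x + y)) ≤ 1 / (10 * e) := by
  have he' : (0 : ℝ) < e := by exact_mod_cast he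
  rw [hR] at hx hy
  push_cast at hx hy
  have e1 : 8 * (b : ℝ) / (1 / (100 * (e : ℝ)) * n / (m₀ * B)) = 800 * b * e * m₀ * B / n := by
    field_simp
    ring
  have e2 : (k : ℝ) ^ 2 * (800 * b * e * m₀ * B / n * (800 * b * e * m₀ * B / n)) * (2 * (x + y))
      = 1280000 * k ^ 2 * b ^ 2 * e ^ 2 * m₀ ^ 2 * B ^ 2 * (x + y) / n ^ 2 := by
    field_simp
    ring
  rw [e1, e2, div_le_div_iff₀ (by positivity) (by positivity)]
  linarith

theorem copy_term {k b e m B y Φ : ℕ} {n N : ℝ} (hn : 0 < n) (he : 0 < e) (hN : 0 ≤ N)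
    (hzy : 200 * b * m * B * e ≤ y) (hΦ : 10 * e * y ^ (2 * k) ≤ Φ)
    (hlt : N * Φ < n ^ (2 * k)) :
    N * ((2 * b * m * (B : ℝ) / (1 / (100 * (e : ℝ)) * n)) ^ k
      * (2 * b * m * (B : ℝ) / (1 / (100 * (e : ℝ)) * n)) ^ k) < 1 / (10 * e) := by
  have he' : (0 : ℝ) < e := by exact_mod_cast he
  have ez : 2 * (b : ℝ) * m * (B : ℝ) / (1 / (100 * (e : ℝ)) * n)
      = ((200 * b * m * B * e : ℕ) : ℝ) / n := by
    push_cast
    field_simp
    ring
  set z := 200 * b * m * B * e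
  rw [ez, ← pow_add, ← two_mul, div_pow, ← mul_div_assoc,
    div_lt_div_iff₀ (by positivity) (by positivity), one_mul]
  have h1 : ((10 * e * z ^ (2 * k) : ℕ) : ℝ) ≤ Φ := by
    exact_mod_cast (Nat.mul_le_mul_left _ (Nat.pow_le_pow_left hzy _)).trans hΦ
  calc N * (z : ℝ) ^ (2 * k) * (10 * e) = N * ((10 * e * z ^ (2 * k) : ℕ) : ℝ) := by
        push_cast; ring
    _ ≤ N * Φ := mul_le_mul_of_nonneg_left h1 hN
    _ < _ := hlt

/-- Far matrices contain at least `n ^ (2 k) / loss` copies. -/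
theorem pow_le_copyCount_mul_loss (k : ℕ) (hk : 1 ≤ k) : ∃ C₀ : ℕ,
    ∀ (n : ℕ) (H : Fin k → Fin k → Bool) (A : Fin n → Fin n → Bool) (ε : ℝ) (e : ℕ),
      1 ≤ n → 1 ≤ e → 1 ≤ (e : ℝ) * ε → ε ≤ 1 → Far H A ε →
      (n : ℝ) ^ (2 * k) ≤ (copyCount H A : ℝ) * loss C₀ k e := by
  obtain ⟨C₀, hC₀, hnet⟩ := exists_net k hk
  refine ⟨C₀, fun n H A ε e hn he heε hε hfar => ?_⟩
  set b := k + 1 with hb
  set N : ℝ := (copyCount H A : ℝ) with hN
  set m₀ := coarseM C₀ k e with hm₀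
  set X := sizeX C₀ k e with hX
  set D := depthD C₀ k e with hD
  set Q := growQ C₀ k e with hQ
  set J := numJ C₀ k e with hJ
  set Φ := loss C₀ k e with hΦ
  have hεpos : 0 < ε := by
    have : (0 : ℝ) < e := by exact_mod_cast he
    by_contra h
    nlinarith
  have hN1 : 1 ≤ copyCount H A := copyCount_pos hn hεpos hfar
  have hRc : 0 < coarseR k e := by rw [coarseR]; positivity
  have hm₀pos : 0 < m₀ := by rw [hm₀, coarseM]; positivity
  have hXpos : 0 < X := by rw [hX, sizeX]; positivity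
  set y := 200 * b * (X * b ^ (2 * C₀ * D)) * b ^ D * e with hy
  have hy1 : 1 ≤ y := Nat.one_le_iff_ne_zero.2 (by positivity)
  have hyΦ : y ≤ Φ := by
    rw [hΦ, loss]
    calc y ≤ y ^ (2 * k) := Nat.le_self_pow (by omega) _
      _ ≤ 10 * e * y ^ (2 * k) := Nat.le_mul_of_pos_left _ (by positivity)
  by_contra hlt
  push Not at hlt
  -- `n` is large
  have hbn : b ^ D ≤ n := by
    by_contra h
    push Not at h
    have h1 : n ^ (2 * k) ≤ Φ := by
      rw [hΦ, loss]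
      refine le_trans (Nat.pow_le_pow_left (h.le.trans ?_) _)
        (Nat.le_mul_of_pos_left _ (by positivity))
      have : 0 < 200 * b * (X * b ^ (2 * C₀ * D)) := by positivity
      exact (Nat.le_mul_of_pos_left _ this).trans (Nat.le_mul_of_pos_right _ he)
    have h2 : (n : ℝ) ^ (2 * k) ≤ N * Φ := by
      have hN1' : (1 : ℝ) ≤ N := by rw [hN]; exact_mod_cast hN1
      refine le_trans ?_ (le_mul_of_one_le_left (Nat.cast_nonneg _) hN1')
      exact_mod_cast h1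
    linarith
  have hsmall : ∀ c : ℕ, c ≤ Φ → (copyCount H A : ℝ) * (c : ℕ) < (n : ℝ) ^ (2 * k) := fun c hc =>
    lt_of_le_of_lt (mul_le_mul_of_nonneg_left (by exact_mod_cast hc) (Nat.cast_nonneg _)) hlt
  -- the coarse nets
  have hm₀X : m₀ ≤ X * b ^ (2 * C₀ * D) := by
    rw [hm₀, hX, sizeX, mul_assoc]
    exact Nat.le_mul_of_pos_right _ (by positivity)
  have hXy : X * b ^ (2 * C₀ * D) ≤ y := by
    rw [hy]
    have h1 : 0 < 200 * b := by positivity
    have h2 : 0 < b ^ D := by positivity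
    exact ((Nat.le_mul_of_pos_left _ h1).trans (Nat.le_mul_of_pos_right _ h2)).trans
      (Nat.le_mul_of_pos_right _ he)
  obtain ⟨τ, hτc', hτd⟩ := hnet n H A (coarseR k e) hn hRc
    (hsmall _ ((hm₀X.trans hXy).trans hyΦ))
  obtain ⟨τc, hτcc, hτcd⟩ := hnet n (fun j i => H i j) (fun c r => A r c) (coarseR k e) hn hRc
    (by rw [copyCount_transpose]; exact hsmall _ ((hm₀X.trans hXy).trans hyΦ))
  -- the scale
  have hQpos : 0 < Q := by rw [hQ, growQ]; positivity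
  have hJpos : 0 < J := by rw [hJ, numJ]; positivity
  obtain ⟨l, L, hL, hlL, hEn⟩ := exists_scale hn (show 0 < b by omega) τ τc (Q := Q) hJpos
    hbn
  have hlD : l ≤ D := by
    have : l + L ≤ D := hlL
    omega
  -- the fine nets
  set m₁ := X * b ^ (2 * C₀ * l) with hm₁
  have hm₁y : m₁ ≤ X * b ^ (2 * C₀ * D) :=
    Nat.mul_le_mul_left _ (Nat.pow_le_pow_right (by omega) (Nat.mul_le_mul_left _ hlD))
  have hfs : m₀ * (C₀ * fineR C₀ k e l ^ C₀) = m₁ := fine_size C₀ k e l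
  have hfine : C₀ * fineR C₀ k e l ^ C₀ ≤ Φ := by
    refine le_trans ?_ ((hm₁y.trans hXy).trans hyΦ)
    rw [← hfs]
    exact Nat.le_mul_of_pos_left _ hm₀pos
  have hRf : 0 < fineR C₀ k e l := by rw [fineR]; positivity
  obtain ⟨τ1, hτ1c, hτ1d⟩ := hnet n H A (fineR C₀ k e l) hn hRf (hsmall _ hfine)
  obtain ⟨τc1, hτc1c, hτc1d⟩ := hnet n (fun j i => H i j) (fun c r => A r c) (fineR C₀ k e l)
    hn hRf (by rw [copyCount_transpose]; exact hsmall _ hfine)
  have hσ : (labels τ).card * (labels τ1).card ≤ m₁ := hfs ▸ Nat.mul_le_mul hτc' hτ1c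
  have hσc : (labels τc).card * (labels τc1).card ≤ m₁ := hfs ▸ Nat.mul_le_mul hτcc hτc1c
  -- the depth
  have hLpos : 0 < L := by rw [hL]; positivity
  have hBL : b ^ l * b ^ L ≤ n := by
    rw [← pow_add]
    exact le_trans (Nat.pow_le_pow_right (by omega) hlL) hbn
  obtain ⟨i, hiL, hns⟩ := exists_depth (b := b) hn (by omega) (show 0 < b ^ l by positivity) hBL
    hLpos (fun r => (τ r, τ1 r)) (fun r => (τc r, τc1 r)) (m := m₁) (by positivity)
    ((labels_pair_card_le τ τ1).trans hσ) ((labels_pair_card_le τc τc1).trans hσc)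
  set η : ℝ := 1 / (100 * e) with hη
  have he' : (1 : ℝ) ≤ e := by exact_mod_cast he
  have hn' : (0 : ℝ) < n := by exact_mod_cast hn
  have hηpos : 0 < η := by positivity
  have hscale := scale_bound (M := b ^ i) (m₀ := m₀) (show 0 < k by omega) hn (show 0 < b by omega)
    (by omega) (show 0 < b ^ l by positivity) (by positivity) H A τ τ1 τc τc1 hτc' hτcc hσ hσc
    hηpos hε hfar
  -- energy terms
  have hmon : ∀ t : Fin n → Fin n, energy (b ^ l * b ^ i) t ≤ energy (b ^ l * b ^ L) t := by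
    intro t
    have := energy_mono (B := b ^ l * b ^ i) (M := b ^ (L - i)) (by positivity) (by positivity) t
    rwa [mul_assoc (b ^ l) (b ^ i), ← pow_add b i, Nat.add_sub_cancel' hiL.le] at this
  have hm₀le : ∀ t : Fin n → Fin n, 0 ≤ energy (b ^ l * b ^ i) t - energy (b ^ l) t := fun t =>
    sub_nonneg.2 (energy_mono (by positivity) (by positivity) t)
  have hJe : J = 1600 * m₀ * e ^ 2 := rfl
  have hT1 : 2 * Real.sqrt (m₀ * (energy (b ^ l * b ^ i) τ - energy (b ^ l) τ))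
      ≤ (n : ℝ) / (10 * e) :=
    energy_term hn'.le he hJe (by linarith [hmon τ, hmon τc, hm₀le τc]) hEn
  have hT2 : 2 * Real.sqrt (m₀ * (energy (b ^ l * b ^ i) τc - energy (b ^ l) τc))
      ≤ (n : ℝ) / (10 * e) :=
    energy_term hn'.le he hJe (by linarith [hmon τ, hmon τc, hm₀le τ]) hEn
  have hNS : 4 * nonspan b (b ^ l * b ^ i) (fun r => (τ r, τ1 r))
      + 4 * nonspan b (b ^ l * b ^ i) (fun r => (τc r, τc1 r)) ≤ n / (20 * e) :=
    entropy_term (b := b) (X := X) (C₀ := C₀) hn'.le (Nat.succ_pos k) he hXpos hL hns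
  have hP0 := coarse_term (b := b) hn' he (R := coarseR k e) rfl hτd hτcd
  have hRB : fineR C₀ k e l = 25600000 * k ^ 2 * b ^ 2 * e ^ 3 * m₀ ^ 2 * (b ^ l) ^ 2 := by
    rw [fineR, hb, hm₀, mul_comm 2 l, pow_mul]
  have hP1 := fine_term (k := k) (b := b) (m₀ := m₀) (B := b ^ l) hn' he hRB hτ1d hτc1d
  have hzy : 200 * b * m₁ * (b ^ l * b ^ i) * e ≤ y := by
    have h1 : b ^ l * b ^ i ≤ b ^ D := by
      rw [← pow_add]
      refine Nat.pow_le_pow_right (by omega) ?_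
      have : l + L ≤ D := hlL
      omega
    exact Nat.mul_le_mul_right _ (Nat.mul_le_mul (Nat.mul_le_mul_left _ hm₁y) h1)
  have hP2 := copy_term (k := k) (B := b ^ l * b ^ i) hn' he (Nat.cast_nonneg _) hzy
    (show 10 * e * y ^ (2 * k) ≤ Φ from le_rfl) hlt
  rw [← hη] at hP1 hP2
  -- conclusion
  have hsum : (10 * η * n + 2 * Real.sqrt (m₀ * (energy (b ^ l * b ^ i) τ - energy (b ^ l) τ))
      + 2 * Real.sqrt (m₀ * (energy (b ^ l * b ^ i) τc - energy (b ^ l) τc))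
      + 4 * nonspan b (b ^ l * b ^ i) (fun r => (τ r, τ1 r))
      + 4 * nonspan b (b ^ l * b ^ i) (fun r => (τc r, τc1 r))) / n ≤ 7 / (20 * e) := by
    rw [div_le_iff₀ hn']
    have : 10 * η * n = (n : ℝ) / (10 * e) := by rw [hη]; field_simp; ring
    have : 7 / (20 * (e : ℝ)) * n = n / (10 * e) + n / (10 * e) + n / (10 * e) + n / (20 * e) := by
      field_simp; ring
    linarith
  have hfin : ε < 13 / (20 * e) := by
    have : (13 : ℝ) / (20 * e)
        = 7 / (20 * e) + 1 / (10 * e) + 1 / (10 * e) + 1 / (10 * e) := by field_simp; ring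
    linarith
  rw [lt_div_iff₀ (by positivity)] at hfin
  linarith

/-- The doubly exponential removal bound for one ordered binary pattern. -/
theorem removal_bound (k : ℕ) : ∃ C : ℝ, 0 < C ∧
    ∀ (n : ℕ) (H : Fin k → Fin k → Bool) (A : Fin n → Fin n → Bool) (ε : ℝ),
      1 ≤ n → 0 < ε → ε ≤ 1 → Far H A ε →
      Real.exp (-Real.exp (C * (1 / ε) ^ C)) * (n : ℝ) ^ (2 * k) ≤ (copyCount H A : ℝ) := by
  rcases Nat.eq_zero_or_pos k with rfl | hk
  · refine ⟨1, one_pos, fun n H A ε hn hε _ hfar => ?_⟩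
    have h1 : (1 : ℝ) ≤ copyCount H A := by exact_mod_cast copyCount_pos hn hε hfar
    have h2 : Real.exp (-Real.exp (1 * (1 / ε) ^ (1 : ℝ))) ≤ 1 :=
      Real.exp_le_one_iff.2 (neg_nonpos.2 (Real.exp_pos _).le)
    simp only [mul_zero, pow_zero, mul_one] at h2 ⊢
    linarith
  obtain ⟨C₀, hmain⟩ := pow_le_copyCount_mul_loss k hk
  obtain ⟨C, hC, hloss⟩ := exists_loss_le C₀ k
  refine ⟨((C * 2 ^ C : ℕ) : ℝ), by positivity, fun n H A ε hn hε hε1 hfar => ?_⟩
  set e := ⌈1 / ε⌉₊ with hedef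
  have h1ε : 1 ≤ 1 / ε := (one_le_div hε).2 hε1
  have he : 1 ≤ e := Nat.one_le_ceil_iff.2 (by positivity)
  have heε : 1 ≤ (e : ℝ) * ε := (div_le_iff₀ hε).1 (Nat.le_ceil _)
  have he2 : (e : ℝ) ≤ 2 * (1 / ε) := by
    have := Nat.ceil_lt_add_one (show 0 ≤ 1 / ε by positivity)
    linarith
  have hexp : ((C * e ^ C : ℕ) : ℝ) ≤ ((C * 2 ^ C : ℕ) : ℝ) * (1 / ε) ^ ((C * 2 ^ C : ℕ) : ℝ) := by
    rw [Real.rpow_natCast]
    have h2 : (1 / ε) ^ C ≤ (1 / ε) ^ (C * 2 ^ C) :=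
      pow_le_pow_right₀ h1ε (Nat.le_mul_of_pos_right _ (by positivity))
    push_cast
    calc (C : ℝ) * (e : ℝ) ^ C ≤ C * (2 * (1 / ε)) ^ C := by gcongr
      _ = C * 2 ^ C * (1 / ε) ^ C := by rw [mul_pow]; ring
      _ ≤ _ := mul_le_mul_of_nonneg_left h2 (by positivity)
  have hL := (hloss e he).trans (Real.exp_le_exp.2 (Real.exp_le_exp.2 hexp))
  rw [Real.exp_neg, ← div_eq_inv_mul, div_le_iff₀ (Real.exp_pos _)]
  exact (hmain n H A ε e hn he heε hε1 hfar).trans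
    (mul_le_mul_of_nonneg_left hL (Nat.cast_nonneg _))

end Vale.Agent.P037
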