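import Vale.Agent.P037.Defs

/-!
A large shattered set of columns forces an ordered copy of every `k × k` pattern.
-/

namespace Vale.Agent.P037

open Finset

/-- If the rows realise every pattern on enough columns, there is an ordered copy of `H`. -/
theorem exists_dim (k : ℕ) (hk : 1 ≤ k) : ∃ d : ℕ, 1 ≤ d ∧ ∀ (n : ℕ) (H : Fin k → Fin k → Bool)
    (A : Fin n → Fin n → Bool) (Rs Cs : Finset (Fin n)), d ≤ Cs.card →
    (∀ π : Fin n → Bool, ∃ r ∈ Rs, ∀ c ∈ Cs, A r c = π c) →
    ∃ r c : Fin k → Fin n, IsCopy H A r c ∧ (∀ i, r i ∈ Rs) ∧ (∀ i, c i ∈ Cs) := by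
  classical
  obtain ⟨g₀, hg₀⟩ : ∃ g₀ : ℕ, (1 - 1 / (2 : ℝ) ^ k) ^ g₀ < 1 / (2 * k) := by
    apply exists_pow_lt_of_lt_one
    · positivity
    · have : (0 : ℝ) < 1 / 2 ^ k := by positivity
      linarith
  set G := k * g₀ + 1 with hG
  refine ⟨G * k, Nat.one_le_iff_ne_zero.2 (by positivity), ?_⟩
  intro n H A Rs Cs hCs hsh
  obtain ⟨Cs', hsub, hcard⟩ := Finset.exists_subset_card_eq hCs
  set emb := Cs'.orderEmbOfFin hcard
  set col : Fin G → Fin k → Fin n := fun g i => emb (finProdFinEquiv (g, i)) with hcol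
  have hcolinj : ∀ g g' i i', col g i = col g' i' → g = g' ∧ i = i' := by
    intro g g' i i' h
    have := finProdFinEquiv.injective (emb.injective h)
    exact ⟨congrArg Prod.fst this, congrArg Prod.snd this⟩
  have hcolmem : ∀ g i, col g i ∈ Cs := fun g i => hsub (Cs'.orderEmbOfFin_mem hcard _)
  have hcolmono : ∀ g, StrictMono (col g) := by
    intro g i i' h
    apply emb.strictMono
    rw [Fin.lt_def]
    simp only [finProdFinEquiv_apply_val]
    exact Nat.add_lt_add_right (Fin.lt_def.1 h) _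
  have hex : ∀ p : Fin G → Fin k → Bool, ∃ r ∈ Rs, ∀ g i, A r (col g i) = p g i := by
    intro p
    obtain ⟨r, hr, h⟩ := hsh (fun c => decide (∃ g i, col g i = c ∧ p g i = true))
    refine ⟨r, hr, fun g i => ?_⟩
    rw [h _ (hcolmem g i)]
    cases hp : p g i
    · simp only [decide_eq_false_iff_not, not_exists, not_and, Bool.not_eq_true]
      intro g' i' he
      obtain ⟨rfl, rfl⟩ := hcolinj _ _ _ _ he
      exact hp
    · simp only [decide_eq_true_eq]
      exact ⟨g, i, rfl, hp⟩
  choose row hrowmem hrow using hex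
  have hrowinj : Function.Injective row := by
    intro p p' h
    funext g i
    rw [← hrow p g i, h, hrow p' g i]
  set Ls := (Finset.univ : Finset (Fin G → Fin k → Bool)).image row
  set m := (2 ^ k) ^ G with hm
  have hLs : Ls.card = m := by
    rw [Finset.card_image_of_injective _ hrowinj]
    simp [hm]
  set q := m / k with hq
  have h2k : 2 * k ≤ m := by
    have h1 : 2 * k ≤ 2 ^ k := by
      obtain ⟨j, rfl⟩ := Nat.exists_eq_add_of_le hk
      have := (Nat.lt_two_pow_self (n := j))
      rw [pow_add]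
      omega
    exact h1.trans (Nat.le_self_pow (by omega) _)
  have hqk : q * k ≤ m := Nat.div_mul_le_self m k
  have hmq : m ≤ 2 * k * q := by
    have := Nat.div_add_mod m k
    have := Nat.mod_lt m (show 0 < k by omega)
    nlinarith
  set remb := Ls.orderEmbOfFin hLs
  have hlt : ∀ (i : Fin k) (x : Fin q), i.val * q + x.val < m := by
    intro i x
    have : (i.val + 1) * q ≤ k * q := Nat.mul_le_mul_right _ i.isLt
    nlinarith [x.isLt]
  set pos : Fin k → Fin q → Fin m := fun i x => ⟨i.val * q + x.val, hlt i x⟩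
  have hget : ∀ z : Fin m, ∃ p, row p = remb z := by
    intro z
    have := Ls.orderEmbOfFin_mem hLs z
    simp only [Ls, Finset.mem_image, Finset.mem_univ, true_and] at this
    exact this
  choose pat hpat using hget
  set Q : Fin k → Finset (Fin G → Fin k → Bool) :=
    fun i => (Finset.univ : Finset (Fin q)).image (fun x => pat (pos i x))
  have hQcard : ∀ i, (Q i).card = q := by
    intro i
    rw [Finset.card_image_of_injective]
    · simp
    · intro x y h
      have hh : row (pat (pos i x)) = row (pat (pos i y)) := congrArg row h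
      rw [hpat, hpat] at hh
      have := remb.injective hh
      apply Fin.ext
      have := congrArg Fin.val this
      simp only [pos] at this
      omega
  set bad : Fin k → Finset (Fin G) :=
    fun i => Finset.univ.filter (fun g => ∃ π : Fin k → Bool, ∀ p ∈ Q i, p g ≠ π)
  have hbad : ∀ i, (bad i).card ≤ g₀ := by
    intro i
    by_contra hc
    push Not at hc
    obtain ⟨Γ, hΓs, hΓc⟩ := Finset.exists_subset_card_eq hc.le
    have hch : ∀ g, ∃ π : Fin k → Bool, g ∈ Γ → ∀ p ∈ Q i, p g ≠ π := by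
      intro g
      by_cases hg : g ∈ Γ
      · obtain ⟨π, hπ⟩ := (Finset.mem_filter.1 (hΓs hg)).2
        exact ⟨π, fun _ => hπ⟩
      · exact ⟨fun _ => false, fun h => absurd h hg⟩
    choose π hπ using hch
    have hsubQ : Q i ⊆ Fintype.piFinset
        (fun g => if g ∈ Γ then Finset.univ.erase (π g) else Finset.univ) := by
      intro p hp
      rw [Fintype.mem_piFinset]
      intro g
      by_cases hg : g ∈ Γ
      · rw [if_pos hg]
        exact Finset.mem_erase.2 ⟨hπ g hg p hp, Finset.mem_univ _⟩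
      · rw [if_neg hg]
        exact Finset.mem_univ _
    have hcnt := Finset.card_le_card hsubQ
    have hg₀G : g₀ ≤ G := by
      rw [← hΓc]; exact (Finset.card_le_univ Γ).trans (by simp)
    rw [hQcard, Fintype.card_piFinset] at hcnt
    have hprod : ∏ g, (if g ∈ Γ then Finset.univ.erase (π g) else Finset.univ).card
        = (2 ^ k - 1) ^ g₀ * (2 ^ k) ^ (G - g₀) := by
      rw [← Finset.prod_mul_prod_compl Γ]
      congr 1
      · rw [Finset.prod_congr rfl (g := fun _ => 2 ^ k - 1)]
        · simp [hΓc]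
        · intro g hg; simp [hg]
      · rw [Finset.prod_congr rfl (g := fun _ => 2 ^ k)]
        · simp [Finset.card_compl, hΓc]
        · intro g hg
          simp [Finset.mem_compl.1 hg]
    rw [hprod] at hcnt
    have hreal : (m : ℝ) ≤ 2 * k * (((2 : ℝ) ^ k - 1) ^ g₀ * ((2 : ℝ) ^ k) ^ (G - g₀)) := by
      have h1 : (m : ℝ) ≤ 2 * k * (q : ℝ) := by exact_mod_cast hmq
      have h2 : (q : ℝ) ≤ (((2 : ℝ) ^ k - 1) ^ g₀ * ((2 : ℝ) ^ k) ^ (G - g₀)) := by
        have h3 : ((((2 ^ k - 1) ^ g₀ * (2 ^ k) ^ (G - g₀) : ℕ)) : ℝ)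
            = ((2 : ℝ) ^ k - 1) ^ g₀ * ((2 : ℝ) ^ k) ^ (G - g₀) := by
          push_cast [Nat.one_le_two_pow]
          rfl
        rw [← h3]
        exact_mod_cast hcnt
      calc (m : ℝ) ≤ 2 * k * (q : ℝ) := h1
        _ ≤ _ := mul_le_mul_of_nonneg_left h2 (by positivity)
    have hk0 : (0 : ℝ) < k := by exact_mod_cast hk
    have hP : (0 : ℝ) < 2 ^ k := by positivity
    have hmR : (m : ℝ) = ((2 : ℝ) ^ k) ^ g₀ * ((2 : ℝ) ^ k) ^ (G - g₀) := by
      rw [← pow_add, Nat.add_sub_cancel' hg₀G, hm]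
      push_cast
      rfl
    rw [hmR] at hreal
    have h4 : (1 - 1 / (2 : ℝ) ^ k) ^ g₀ * ((2 : ℝ) ^ k) ^ g₀ = ((2 : ℝ) ^ k - 1) ^ g₀ := by
      rw [← mul_pow]
      congr 1
      field_simp
    rw [← h4] at hreal
    have h5 : 2 * k * (1 - 1 / (2 : ℝ) ^ k) ^ g₀ < 1 := by
      rw [lt_div_iff₀ (by positivity)] at hg₀
      linarith
    have h6 : (0 : ℝ) < ((2 : ℝ) ^ k) ^ g₀ * ((2 : ℝ) ^ k) ^ (G - g₀) := by positivity
    nlinarith [mul_lt_mul_of_pos_right h5 h6]
  obtain ⟨g, hg⟩ : ∃ g : Fin G, ∀ i, g ∉ bad i := by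
    by_contra hc
    push Not at hc
    have hsub' : (Finset.univ : Finset (Fin G)) ⊆ Finset.univ.biUnion bad := by
      intro g _
      obtain ⟨i, hi⟩ := hc g
      exact Finset.mem_biUnion.2 ⟨i, Finset.mem_univ _, hi⟩
    have := (Finset.card_le_card hsub').trans (Finset.card_biUnion_le.trans
      (Finset.sum_le_sum fun i _ => hbad i))
    simp at this
    omega
  have hpick : ∀ i : Fin k, ∃ x : Fin q, pat (pos i x) g = H i := by
    intro i
    have := hg i
    simp only [bad, Finset.mem_filter, Finset.mem_univ, true_and, not_exists] at this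
    have := this (H i)
    push Not at this
    obtain ⟨p, hp, he⟩ := this
    obtain ⟨x, -, rfl⟩ := Finset.mem_image.1 hp
    exact ⟨x, he⟩
  choose x hx using hpick
  refine ⟨fun i => remb (pos i (x i)), col g, ⟨?_, hcolmono g, ?_⟩, ?_, hcolmem g⟩
  · intro i j hij
    apply remb.strictMono
    rw [Fin.lt_def]
    simp only [pos]
    have : (i.val + 1) * q ≤ j.val * q := Nat.mul_le_mul_right _ (Fin.lt_def.1 hij)
    have := (x i).isLt
    nlinarith
  · intro i j
    simp only
    rw [← hpat, hrow, hx]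
  · intro i
    simp only
    rw [← hpat]
    exact hrowmem _

end Vale.Agent.P037
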