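import Vale.Agent.P037.Prob
import Vale.Agent.P037.Shatter

/-!
Few copies give a net of polynomially many rows.
-/

namespace Vale.Agent.P037

open Finset

/-- Number of columns in which two rows differ, as a real number. -/
noncomputable def dis {n : ℕ} (A : Fin n → Fin n → Bool) (r r' : Fin n) : ℝ :=
  ∑ c, if A r c = A r' c then (0 : ℝ) else 1

theorem dis_nonneg {n : ℕ} (A : Fin n → Fin n → Bool) (r r' : Fin n) : 0 ≤ dis A r r' :=
  Finset.sum_nonneg fun c _ => by split_ifs <;> norm_num

theorem dis_le {n : ℕ} (A : Fin n → Fin n → Bool) (r r' : Fin n) : dis A r r' ≤ n := by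
  have : dis A r r' ≤ ∑ _c : Fin n, (1 : ℝ) :=
    Finset.sum_le_sum fun c _ => by split_ifs <;> norm_num
  simpa using this

theorem sum_range_pow_le (N d : ℕ) : ∑ i ∈ Finset.range d, N ^ i ≤ (N + 1) ^ d := by
  induction d with
  | zero => simp
  | succ d ih =>
    rw [Finset.sum_range_succ]
    rcases Nat.eq_zero_or_pos N with rfl | hN
    · rcases d with _ | d
      · simp
      · rw [zero_pow (Nat.succ_ne_zero d)]
        simp
    · have h2 : N ^ d ≤ (N + 1) ^ d := Nat.pow_le_pow_left (Nat.le_succ N) d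
      calc _ ≤ (N + 1) ^ d + (N + 1) ^ d := Nat.add_le_add ih h2
        _ = (N + 1) ^ d * 2 := by ring
        _ ≤ (N + 1) ^ d * (N + 1) := Nat.mul_le_mul_left _ (by omega)
        _ = _ := (pow_succ _ _).symm

/-- A large family of subsets shatters a large set. -/
theorem exists_shattered {N : ℕ} (𝒜 : Finset (Finset (Fin N))) (d : ℕ)
    (h : (N + 1) ^ d < 𝒜.card) : ∃ T, 𝒜.Shatters T ∧ d ≤ T.card := by
  by_contra hc
  push Not at hc
  have hsub : 𝒜.shatterer ⊆
      (Finset.range d).biUnion (fun i => (Finset.univ : Finset (Fin N)).powersetCard i) := by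
    intro T hT
    refine Finset.mem_biUnion.2 ⟨T.card, Finset.mem_range.2 (hc T (Finset.mem_shatterer.1 hT)), ?_⟩
    simp [Finset.mem_powersetCard]
  have := ((Finset.card_le_card_shatterer 𝒜).trans (Finset.card_le_card hsub)).trans
    Finset.card_biUnion_le
  have h2 : ∑ i ∈ Finset.range d, ((Finset.univ : Finset (Fin N)).powersetCard i).card
      ≤ ∑ i ∈ Finset.range d, N ^ i :=
    Finset.sum_le_sum fun i _ => by simpa using Nat.choose_le_pow N i
  have := (this.trans h2).trans (sum_range_pow_le N d)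
  omega

/-- Sum over functions with prescribed values at distinct arguments. -/
theorem sum_eval_indicator {n S k : ℕ} (hn : 1 ≤ n) {a : Fin k → Fin S}
    (x : Fin k → Fin n) (hx : Function.Injective x) :
    ∑ f : Fin S → Fin n, (if ∀ j, f (a j) = x j then (1 : ℝ) else 0)
      ≤ (n : ℝ) ^ S / (n : ℝ) ^ k := by
  classical
  by_cases ha : Function.Injective a
  · have hn' : (n : ℝ) ≠ 0 := by positivity
    have h := sum_prod_marginal (I := Fin S) (α := Fin n) (fun _ _ => 1 / (n : ℝ))
      (fun _ => by simp [hn']) ha x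
    simp only [Finset.prod_const, Finset.card_univ, Fintype.card_fin] at h
    rw [← Finset.mul_sum, div_pow, div_pow, one_pow, one_pow] at h
    apply le_of_eq
    field_simp at h ⊢
    convert h using 1; ring_nf
  · rw [Finset.sum_eq_zero]
    · positivity
    intro f _
    rw [if_neg]
    intro hf
    apply ha
    intro i j hij
    apply hx
    rw [← hf i, ← hf j, hij]

/-- Few copies give a small set of rows approximating almost all rows. -/
theorem exists_net (k : ℕ) (hk : 1 ≤ k) : ∃ C₀ : ℕ, 1 ≤ C₀ ∧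
    ∀ (n : ℕ) (H : Fin k → Fin k → Bool) (A : Fin n → Fin n → Bool) (R : ℕ), 1 ≤ n → 1 ≤ R →
      (copyCount H A : ℝ) * ((C₀ * R ^ C₀ : ℕ) : ℝ) < (n : ℝ) ^ (2 * k) →
      ∃ τ : Fin n → Fin n, (Finset.univ.image τ).card ≤ C₀ * R ^ C₀ ∧
        (R : ℝ) * (∑ r, dis A r (τ r)) ≤ (n : ℝ) ^ 2 := by
  classical
  obtain ⟨d, hd1, hdim⟩ := exists_dim k hk
  set j₀ := 2 * d + 1 with hj₀
  set Cd := 16 * 2 ^ d * 2 ^ j₀ * j₀.factorial with hCd
  have hCd1 : 1 ≤ Cd := Nat.one_le_iff_ne_zero.2 (by positivity)
  set E := 1 + (2 * d + 1) * k + 2 * k with hE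
  set K := 8 * (9 * (Cd + 1) ^ d) ^ k * Cd ^ k + 9 * (Cd + 1) ^ d + E with hK
  have hK1 : 1 ≤ K := by omega
  refine ⟨K, hK1, ?_⟩
  intro n H A R hn hR hcc
  set N := Cd * R ^ 2 with hN
  set s := 8 * (N + 1) ^ d * R with hs
  have hs1 : 1 ≤ s := Nat.one_le_iff_ne_zero.2 (by positivity)
  have hNR : N + 1 ≤ (Cd + 1) * R ^ 2 := by
    have : 1 ≤ R ^ 2 := Nat.one_le_pow _ _ hR
    nlinarith
  have hs9 : s + 1 ≤ 9 * (Cd + 1) ^ d * R ^ (2 * d + 1) := by
    have h1 : (N + 1) ^ d ≤ (Cd + 1) ^ d * R ^ (2 * d) := by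
      rw [pow_mul, ← mul_pow]
      exact Nat.pow_le_pow_left hNR d
    have h3 : s ≤ 8 * ((Cd + 1) ^ d * R ^ (2 * d)) * R :=
      Nat.mul_le_mul_right _ (Nat.mul_le_mul_left _ h1)
    have h4 : 1 ≤ (Cd + 1) ^ d * R ^ (2 * d) * R := Nat.one_le_iff_ne_zero.2 (by positivity)
    rw [pow_succ]
    nlinarith
  have hEK : R ^ E ≤ R ^ K := Nat.pow_le_pow_right hR (by omega)
  have hbig : 8 * R * ((s + 1) ^ k * N ^ k) ≤ K * R ^ K := by
    calc 8 * R * ((s + 1) ^ k * N ^ k)
        ≤ 8 * R * ((9 * (Cd + 1) ^ d * R ^ (2 * d + 1)) ^ k * N ^ k) := by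
          gcongr
      _ = 8 * (9 * (Cd + 1) ^ d) ^ k * Cd ^ k * R ^ E := by
          rw [hN, mul_pow (9 * (Cd + 1) ^ d), mul_pow Cd, ← pow_mul, ← pow_mul, hE, pow_add,
            pow_add, pow_one]
          ring
      _ ≤ K * R ^ K := Nat.mul_le_mul (by omega) hEK
  have hsK : s ≤ K * R ^ K := by
    calc s ≤ 9 * (Cd + 1) ^ d * R ^ (2 * d + 1) := by omega
      _ ≤ K * R ^ K := by
          refine Nat.mul_le_mul (by omega) (Nat.pow_le_pow_right hR ?_)
          have : 1 * 1 ≤ (2 * d + 1) * k := Nat.mul_le_mul (by omega) hk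
          have : (2 * d + 1) * 1 ≤ (2 * d + 1) * k := Nat.mul_le_mul_left _ hk
          omega
  -- normalising quantities
  set T : ℝ := (n : ℝ) ^ (s + 1) * (n : ℝ) ^ N with hT
  have hn0 : (0 : ℝ) < n := by exact_mod_cast hn
  have hT0 : 0 < T := by positivity
  set uniq : (Fin (s + 1) → Fin n) → (Fin N → Fin n) → Fin (s + 1) → ℝ :=
    fun f g i => if ∀ i', i' ≠ i → ∃ j, A (f i) (g j) ≠ A (f i') (g j) then 1 else 0 with huniq
  set copyInd : (Fin (s + 1) → Fin n) → (Fin N → Fin n) → ℝ :=
    fun f g => ∑ a : Fin k → Fin (s + 1), ∑ b : Fin k → Fin N,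
      ∑ p : {p : (Fin k → Fin n) × (Fin k → Fin n) // IsCopy H A p.1 p.2},
        (if ∀ j, f (a j) = p.1.1 j then (1 : ℝ) else 0) *
        (if ∀ j, g (b j) = p.1.2 j then (1 : ℝ) else 0) with hcopyInd
  have hpoint : ∀ f g, ∑ i, uniq f g i
      ≤ ((N + 1) ^ d : ℕ) + (s + 1 : ℕ) * copyInd f g := by
    intro f g
    set tr : Fin (s + 1) → Finset (Fin N) :=
      fun i => Finset.univ.filter (fun j => A (f i) (g j) = true) with htr
    set U := Finset.univ.filter
      (fun i : Fin (s + 1) => ∀ i', i' ≠ i → ∃ j, A (f i) (g j) ≠ A (f i') (g j))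
    have hU : ∑ i, uniq f g i = (U.card : ℝ) := by
      simp [uniq, U, Finset.sum_boole]
    rw [hU]
    have hinj : Set.InjOn tr U := by
      intro i hi i' _ he
      by_contra hne
      obtain ⟨j, hj⟩ := (Finset.mem_filter.1 hi).2 i' (fun h => hne h.symm)
      apply hj
      have := Finset.ext_iff.1 he j
      simp only [tr, Finset.mem_filter, Finset.mem_univ, true_and] at this
      exact Bool.eq_iff_iff.2 this
    have hUc : U.card ≤ (Finset.univ.image tr).card := by
      rw [← Finset.card_image_of_injOn hinj]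
      exact Finset.card_le_card (Finset.image_subset_image (Finset.subset_univ _))
    have hnn : ∀ (a : Fin k → Fin (s + 1)) (b : Fin k → Fin N)
        (p : {p : (Fin k → Fin n) × (Fin k → Fin n) // IsCopy H A p.1 p.2}),
        (0 : ℝ) ≤ (if ∀ j, f (a j) = p.1.1 j then (1 : ℝ) else 0) *
        (if ∀ j, g (b j) = p.1.2 j then (1 : ℝ) else 0) := by
      intro a b p
      split_ifs <;> norm_num
    have hci : 0 ≤ copyInd f g :=
      Finset.sum_nonneg fun a _ => Finset.sum_nonneg fun b _ =>
        Finset.sum_nonneg fun p _ => hnn a b p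
    by_cases hbigtr : (Finset.univ.image tr).card ≤ (N + 1) ^ d
    · have h1 : (U.card : ℝ) ≤ ((N + 1) ^ d : ℕ) := by exact_mod_cast hUc.trans hbigtr
      have : 0 ≤ (s + 1 : ℕ) * copyInd f g := mul_nonneg (Nat.cast_nonneg _) hci
      linarith
    · obtain ⟨Ts, hTs, hTc⟩ := exists_shattered _ d (not_le.1 hbigtr)
      have hginj : Set.InjOn g Ts := by
        intro j hj j' hj' he
        by_contra hne
        obtain ⟨u, hu, hue⟩ := hTs (show ({j} : Finset (Fin N)) ⊆ Ts by simpa using hj)
        obtain ⟨i, -, rfl⟩ := Finset.mem_image.1 hu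
        have h1 : j ∈ tr i := (Finset.mem_inter.1 (by rw [hue]; simp : j ∈ Ts ∩ tr i)).2
        have h2 : j' ∉ tr i := fun h => by
          have : j' ∈ ({j} : Finset (Fin N)) := hue ▸ Finset.mem_inter.2 ⟨hj', h⟩
          exact hne (Finset.mem_singleton.1 this).symm
        simp only [tr, Finset.mem_filter, Finset.mem_univ, true_and] at h1 h2
        rw [he] at h1
        exact h2 h1
      obtain ⟨r, c, hcopy, hr, hc⟩ := hdim n H A (Finset.univ.image f) (Ts.image g)
        (by rw [Finset.card_image_of_injOn hginj]; exact hTc)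
        (fun π => by
          obtain ⟨u, hu, hue⟩ := hTs (Finset.filter_subset (fun j => π (g j) = true) Ts)
          obtain ⟨i, -, rfl⟩ := Finset.mem_image.1 hu
          refine ⟨f i, Finset.mem_image.2 ⟨i, Finset.mem_univ _, rfl⟩, ?_⟩
          intro c hc
          obtain ⟨j, hj, rfl⟩ := Finset.mem_image.1 hc
          have := Finset.ext_iff.1 hue j
          simp only [tr, Finset.mem_inter, hj, Finset.mem_filter, Finset.mem_univ, true_and]
            at this
          exact Bool.eq_iff_iff.2 this)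
      have hra : ∀ i, ∃ a, f a = r i := fun i => by simpa using hr i
      have hcb : ∀ i, ∃ b, g b = c i := fun i => by
        obtain ⟨b, -, hb⟩ := Finset.mem_image.1 (hc i); exact ⟨b, hb⟩
      choose a ha using hra
      choose b hb using hcb
      have hone : 1 ≤ copyInd f g := by
        refine le_trans ?_ (Finset.single_le_sum (fun a _ => Finset.sum_nonneg fun b _ =>
          Finset.sum_nonneg fun p _ => hnn a b p) (Finset.mem_univ a))
        refine le_trans ?_ (Finset.single_le_sum (fun b _ =>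
          Finset.sum_nonneg fun p _ => hnn a b p) (Finset.mem_univ b))
        refine le_trans ?_ (Finset.single_le_sum (fun p _ => hnn a b p)
          (Finset.mem_univ ⟨(r, c), hcopy⟩))
        rw [if_pos ha, if_pos hb, mul_one]
      have h1 : (U.card : ℝ) ≤ (s + 1 : ℕ) := by
        exact_mod_cast (Finset.card_le_univ U).trans (by simp)
      have h2 : ((s + 1 : ℕ) : ℝ) ≤ (s + 1 : ℕ) * copyInd f g :=
        le_mul_of_one_le_right (Nat.cast_nonneg _) hone
      have : (0 : ℝ) ≤ ((N + 1) ^ d : ℕ) := Nat.cast_nonneg _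
      linarith
  have hcopysum : ∑ f, ∑ g, copyInd f g
      ≤ ((s + 1 : ℕ) : ℝ) ^ k * (N : ℝ) ^ k * copyCount H A * T / (n : ℝ) ^ (2 * k) := by
    simp only [hcopyInd]
    rw [Finset.sum_congr rfl (fun f _ => Finset.sum_comm), Finset.sum_comm]
    calc _ ≤ ∑ _a : Fin k → Fin (s + 1), ∑ _b : Fin k → Fin N,
          ∑ _p : {p : (Fin k → Fin n) × (Fin k → Fin n) // IsCopy H A p.1 p.2},
            T / (n : ℝ) ^ (2 * k) := by
          apply Finset.sum_le_sum
          intro a _
          rw [Finset.sum_congr rfl (fun f _ => Finset.sum_comm), Finset.sum_comm]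
          apply Finset.sum_le_sum
          intro b _
          rw [Finset.sum_congr rfl (fun f _ => Finset.sum_comm), Finset.sum_comm]
          apply Finset.sum_le_sum
          intro p _
          rw [← Finset.sum_mul_sum]
          calc _ ≤ ((n : ℝ) ^ (s + 1) / (n : ℝ) ^ k) * ((n : ℝ) ^ N / (n : ℝ) ^ k) :=
                mul_le_mul (sum_eval_indicator hn _ p.2.1.injective)
                  (sum_eval_indicator hn _ p.2.2.1.injective)
                  (Finset.sum_nonneg fun g _ => by split_ifs <;> norm_num) (by positivity)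
            _ = T / (n : ℝ) ^ (2 * k) := by
                rw [hT, two_mul, pow_add _ k k]
                field_simp
      _ = _ := by
          simp only [Finset.sum_const, Finset.card_univ, nsmul_eq_mul, Fintype.card_fun,
            Fintype.card_fin, Nat.cast_pow, copyCount, Nat.card_eq_fintype_card]
          ring
  set U : Fin (s + 1) → ℝ := fun i => ∑ f, ∑ g, uniq f g i with hUdef
  have htot : ∑ i, U i ≤ ((s + 1 : ℕ) : ℝ) * (T / (4 * R)) := by
    have e1 : ∑ i, U i = ∑ f, ∑ g, ∑ i, uniq f g i := by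
      simp only [U]
      rw [Finset.sum_comm]
      exact Finset.sum_congr rfl fun f _ => Finset.sum_comm
    rw [e1]
    calc _ ≤ ∑ f : Fin (s + 1) → Fin n, ∑ g : Fin N → Fin n,
          ((((N + 1) ^ d : ℕ) : ℝ) + (s + 1 : ℕ) * copyInd f g) :=
          Finset.sum_le_sum fun f _ => Finset.sum_le_sum fun g _ => hpoint f g
      _ = (((N + 1) ^ d : ℕ) : ℝ) * T + (s + 1 : ℕ) * ∑ f, ∑ g, copyInd f g := by
          simp only [Finset.sum_add_distrib, Finset.sum_const, Finset.card_univ, nsmul_eq_mul,
            Fintype.card_fun, Fintype.card_fin, Nat.cast_pow, hT, Finset.mul_sum]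
          ring
      _ ≤ ((s + 1 : ℕ) : ℝ) * (T / (8 * R)) + (s + 1 : ℕ) * (T / (8 * R)) := by
          apply add_le_add
          · have h1 : (((N + 1) ^ d : ℕ) : ℝ) * (8 * R) ≤ (s + 1 : ℕ) := by
              have : (N + 1) ^ d * (8 * R) ≤ s + 1 := by
                rw [hs]
                calc (N + 1) ^ d * (8 * R) = 8 * (N + 1) ^ d * R := by ring
                  _ ≤ _ := Nat.le_succ _
              exact_mod_cast this
            have hR0 : (0 : ℝ) < 8 * R := by positivity
            calc _ = (((N + 1) ^ d : ℕ) : ℝ) * (8 * R) * (T / (8 * R)) := by field_simp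
              _ ≤ _ := mul_le_mul_of_nonneg_right h1 (by positivity)
          · refine mul_le_mul_of_nonneg_left (hcopysum.trans ?_) (Nat.cast_nonneg _)
            have h1 : (8 : ℝ) * R * (((s + 1 : ℕ) : ℝ) ^ k * (N : ℝ) ^ k) * copyCount H A
                ≤ (n : ℝ) ^ (2 * k) := by
              refine le_trans ?_ hcc.le
              rw [mul_comm (copyCount H A : ℝ)]
              exact mul_le_mul_of_nonneg_right (by exact_mod_cast hbig) (Nat.cast_nonneg _)
            have hR0 : (0 : ℝ) < 8 * R := by positivity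
            rw [div_le_div_iff₀ (by positivity) hR0]
            nlinarith
      _ = _ := by ring
  obtain ⟨i₀, -, hi₀⟩ : ∃ i ∈ (Finset.univ : Finset (Fin (s + 1))), U i ≤ T / (4 * R) :=
    Finset.exists_le_of_sum_le Finset.univ_nonempty (by
      simpa [Finset.sum_const, nsmul_eq_mul] using htot)
  -- the nearest sampled row
  have : Nonempty (Fin s) := ⟨⟨0, hs1⟩⟩
  have hnear : ∀ (f' : Fin s → Fin n) (r : Fin n), ∃ i, ∀ i', dis A r (f' i) ≤ dis A r (f' i') :=
    fun f' r => Finite.exists_min (fun i => dis A r (f' i))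
  choose near hnearmin using hnear
  have hexp : (s : ℝ) * (1 - 1 / (2 * R)) ^ N ≤ 1 / 2 := by
    set x : ℝ := (N : ℝ) / (2 * R) with hx
    have hR0 : (0 : ℝ) < R := by exact_mod_cast hR
    have h1 : (1 - 1 / (2 * (R : ℝ))) ^ N ≤ Real.exp (-x) := by
      have hb : 0 ≤ 1 - 1 / (2 * (R : ℝ)) := by
        rw [sub_nonneg, div_le_one (by positivity)]
        have : (1 : ℝ) ≤ R := by exact_mod_cast hR
        linarith
      refine (pow_le_pow_left₀ hb (Real.one_sub_le_exp_neg _) N).trans (le_of_eq ?_)
      rw [← Real.exp_nat_mul]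
      congr 1
      rw [hx]
      ring
    have h2 : 2 * (s : ℝ) ≤ Real.exp x := by
      refine le_trans ?_ (Real.pow_div_factorial_le_exp x (by positivity) j₀)
      have hxe : x = (Cd : ℝ) * R / 2 := by
        rw [hx, hN]; push_cast; field_simp
      rw [hxe, le_div_iff₀ (by positivity), div_pow, le_div_iff₀ (by positivity), mul_pow]
      have hN2 : N + 1 ≤ 2 * Cd * R ^ 2 := by
        have : 1 * 1 ≤ Cd * R ^ 2 := Nat.mul_le_mul hCd1 (Nat.one_le_pow _ _ hR)
        rw [hN]
        linarith
      have hcc2 : Cd ≤ Cd ^ (d + 1) := Nat.le_self_pow (by omega) _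
      have : 2 * s * j₀.factorial * 2 ^ j₀ ≤ Cd ^ j₀ * R ^ j₀ := by
        calc 2 * s * j₀.factorial * 2 ^ j₀
            ≤ 2 * (8 * (2 * Cd * R ^ 2) ^ d * R) * j₀.factorial * 2 ^ j₀ := by
              rw [hs]; gcongr
          _ = Cd * Cd ^ d * R ^ j₀ := by
              rw [hj₀, mul_pow, mul_pow, ← pow_mul, pow_succ R, hCd]
              ring
          _ ≤ Cd ^ (d + 1) * Cd ^ d * R ^ j₀ := by gcongr
          _ = Cd ^ j₀ * R ^ j₀ := by
              rw [← pow_add, hj₀]
              congr 2
              omega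
      exact_mod_cast this
    have h3 : (s : ℝ) * Real.exp (-x) ≤ 1 / 2 := by
      rw [Real.exp_neg, ← div_eq_mul_inv, div_le_iff₀ (Real.exp_pos x)]
      linarith
    exact (mul_le_mul_of_nonneg_left h1 (Nat.cast_nonneg _)).trans h3
  have hmain : ∀ (r : Fin n) (f' : Fin s → Fin n), dis A r (f' (near f' r)) * (n : ℝ) ^ N
      ≤ n * ((n : ℝ) ^ N / (2 * R) + 2 * ∑ g, uniq (Fin.insertNth i₀ r f') g i₀) := by
    intro r f'
    have hu0 : 0 ≤ ∑ g, uniq (Fin.insertNth i₀ r f') g i₀ :=
      Finset.sum_nonneg fun g _ => by simp only [uniq]; split_ifs <;> norm_num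
    by_cases hsmall : dis A r (f' (near f' r)) ≤ n / (2 * R)
    · calc _ ≤ (n / (2 * R) : ℝ) * (n : ℝ) ^ N := mul_le_mul_of_nonneg_right hsmall (by positivity)
        _ ≤ _ := by
            have : 0 ≤ (n : ℝ) * (2 * ∑ g, uniq (Fin.insertNth i₀ r f') g i₀) := by positivity
            ring_nf at this ⊢
            linarith
    · have hhalf : (n : ℝ) ^ N / 2 ≤ ∑ g, uniq (Fin.insertNth i₀ r f') g i₀ := by
        have hcomp : ∀ g : Fin N → Fin n, (1 : ℝ) ≤ uniq (Fin.insertNth i₀ r f') g i₀
            + ∑ i, (if ∀ j, A r (g j) = A (f' i) (g j) then (1 : ℝ) else 0) := by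
          intro g
          have hnn' : ∀ i, (0 : ℝ) ≤ if ∀ j, A r (g j) = A (f' i) (g j) then 1 else 0 :=
            fun i => by split_ifs <;> norm_num
          simp only [uniq]
          split_ifs with h
          · have := Finset.sum_nonneg (fun i (_ : i ∈ Finset.univ) => hnn' i)
            linarith
          · push Not at h
            obtain ⟨i', hne, heq⟩ := h
            obtain ⟨i, rfl⟩ := Fin.exists_succAbove_eq hne
            have : (1 : ℝ) ≤ ∑ i, (if ∀ j, A r (g j) = A (f' i) (g j) then (1 : ℝ) else 0) := by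
              refine le_trans ?_ (Finset.single_le_sum (fun i _ => hnn' i) (Finset.mem_univ i))
              rw [if_pos]
              intro j
              simpa using heq j
            linarith
        have hagree : ∀ i, ∑ g : Fin N → Fin n,
            (if ∀ j, A r (g j) = A (f' i) (g j) then (1 : ℝ) else 0)
            ≤ (n : ℝ) ^ N * (1 - 1 / (2 * R)) ^ N := by
          intro i
          have e : ∑ g : Fin N → Fin n,
              (if ∀ j, A r (g j) = A (f' i) (g j) then (1 : ℝ) else 0)
              = ((n : ℝ) - dis A r (f' i)) ^ N := by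
            have h1 : (n : ℝ) - dis A r (f' i)
                = ∑ c, (if A r c = A (f' i) c then (1 : ℝ) else 0) := by
              rw [eq_comm, ← sub_eq_zero, dis]
              have : (n : ℝ) = ∑ _c : Fin n, (1 : ℝ) := by simp
              rw [this, ← Finset.sum_sub_distrib, ← Finset.sum_sub_distrib]
              apply Finset.sum_eq_zero
              intro c _
              split_ifs <;> ring
            rw [h1, Fintype.sum_pow]
            apply Finset.sum_congr rfl
            intro g _
            by_cases hall : ∀ j, A r (g j) = A (f' i) (g j)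
            · rw [if_pos hall, Finset.prod_eq_one]
              intro j _
              rw [if_pos (hall j)]
            · rw [if_neg hall]
              push Not at hall
              obtain ⟨j, hj⟩ := hall
              symm
              exact Finset.prod_eq_zero (Finset.mem_univ j) (if_neg hj)
          rw [e, ← mul_pow]
          apply pow_le_pow_left₀ (by linarith [dis_le A r (f' i)])
          have := hnearmin f' r i
          have h2 : (n : ℝ) / (2 * R) < dis A r (f' i) := lt_of_lt_of_le (not_le.1 hsmall) this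
          calc (n : ℝ) - dis A r (f' i) ≤ n - n / (2 * R) := by linarith
            _ = n * (1 - 1 / (2 * R)) := by ring
        have h1 := Finset.sum_le_sum (fun g (_ : g ∈ Finset.univ) => hcomp g)
        rw [Finset.sum_add_distrib] at h1
        have hswap : ∑ g : Fin N → Fin n, ∑ i : Fin s,
            (if ∀ j, A r (g j) = A (f' i) (g j) then (1 : ℝ) else 0)
            = ∑ i : Fin s, ∑ g : Fin N → Fin n,
            (if ∀ j, A r (g j) = A (f' i) (g j) then (1 : ℝ) else 0) := Finset.sum_comm
        rw [hswap] at h1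
        have h2 := Finset.sum_le_sum (fun i (_ : i ∈ Finset.univ) => hagree i)
        simp only [Finset.sum_const, Finset.card_univ, nsmul_eq_mul, Fintype.card_fun,
          Fintype.card_fin, Nat.cast_pow, mul_one] at h1 h2
        have h3 : (s : ℝ) * ((n : ℝ) ^ N * (1 - 1 / (2 * R)) ^ N) ≤ (n : ℝ) ^ N / 2 := by
          have := mul_le_mul_of_nonneg_left hexp (show (0 : ℝ) ≤ (n : ℝ) ^ N by positivity)
          linarith
        linarith
      calc _ ≤ (n : ℝ) * (n : ℝ) ^ N :=
            mul_le_mul_of_nonneg_right (dis_le _ _ _) (by positivity)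
        _ ≤ _ := by
            apply mul_le_mul_of_nonneg_left _ hn0.le
            have : (0 : ℝ) ≤ (n : ℝ) ^ N / (2 * R) := by positivity
            linarith
  have hsum : ∑ f' : Fin s → Fin n, (∑ r, dis A r (f' (near f' r))) * (n : ℝ) ^ N
      ≤ ∑ _f' : Fin s → Fin n, (n : ℝ) ^ 2 / R * (n : ℝ) ^ N := by
    have e : ∑ f' : Fin s → Fin n, ∑ r, ∑ g, uniq (Fin.insertNth i₀ r f') g i₀ = U i₀ := by
      rw [Finset.sum_comm]
      simp only [U]
      rw [← Fintype.sum_prod_type']
      exact Equiv.sum_comp (Fin.insertNthEquiv (fun _ => Fin n) i₀) (fun f => ∑ g, uniq f g i₀)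
    calc _ ≤ ∑ f' : Fin s → Fin n, ∑ r, (n : ℝ) * ((n : ℝ) ^ N / (2 * R)
          + 2 * ∑ g, uniq (Fin.insertNth i₀ r f') g i₀) := by
          apply Finset.sum_le_sum
          intro f' _
          rw [Finset.sum_mul]
          exact Finset.sum_le_sum fun r _ => hmain r f'
      _ = n * ((n : ℝ) ^ s * n * ((n : ℝ) ^ N / (2 * R)) + 2 * U i₀) := by
          simp only [← Finset.mul_sum, Finset.sum_add_distrib, e]
          simp only [Finset.sum_const, Finset.card_univ, nsmul_eq_mul, Fintype.card_fun,
            Fintype.card_fin, Nat.cast_pow]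
          ring
      _ ≤ n * ((n : ℝ) ^ s * n * ((n : ℝ) ^ N / (2 * R)) + 2 * (T / (4 * R))) := by gcongr
      _ = _ := by
          simp only [Finset.sum_const, Finset.card_univ, nsmul_eq_mul, Fintype.card_fun,
            Fintype.card_fin, Nat.cast_pow, hT, pow_succ]
          ring
  have : Nonempty (Fin n) := ⟨⟨0, hn⟩⟩
  obtain ⟨f', -, hf'⟩ := Finset.exists_le_of_sum_le Finset.univ_nonempty hsum
  refine ⟨fun r => f' (near f' r), ?_, ?_⟩
  · calc _ ≤ ((Finset.univ : Finset (Fin s)).image f').card := by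
          apply Finset.card_le_card
          intro x hx
          obtain ⟨r, -, rfl⟩ := Finset.mem_image.1 hx
          exact Finset.mem_image.2 ⟨_, Finset.mem_univ _, rfl⟩
      _ ≤ s := Finset.card_image_le.trans (by simp)
      _ ≤ _ := hsK
  · have := le_of_mul_le_mul_right hf' (by positivity : (0 : ℝ) < (n : ℝ) ^ N)
    rw [le_div_iff₀ (by positivity)] at this
    linarith

end Vale.Agent.P037
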