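import Vale.Agent.P037.Sampler
import Vale.Agent.P037.Net

/-!
One scale: representatives of rows and columns give a free matrix close to `A` unless there are
many copies, a loss of energy or of entropy, or imprecise nets.
-/

namespace Vale.Agent.P037

open Finset

/-- `1` if two bits differ, else `0`. -/
noncomputable def neq (u v : Bool) : ℝ := if u = v then 0 else 1

theorem neq_nonneg (u v : Bool) : 0 ≤ neq u v := by unfold neq; split_ifs <;> norm_num

theorem neq_le_one (u v : Bool) : neq u v ≤ 1 := by unfold neq; split_ifs <;> norm_num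

theorem neq_chain (u v w t t' : Bool) :
    neq u w ≤ neq u t + neq v t + neq v t' + neq w t' := by
  cases u <;> cases v <;> cases w <;> cases t <;> cases t' <;> simp [neq] <;> norm_num

theorem sum_neq_eq_dis {n : ℕ} (A : Fin n → Fin n → Bool) (r r' : Fin n) :
    ∑ c, neq (A r c) (A r' c) = dis A r r' := rfl

theorem diffCount_eq {n : ℕ} (A B : Fin n → Fin n → Bool) :
    (diffCount A B : ℝ) = ∑ r, ∑ c, neq (A r c) (B r c) := by
  classical
  rw [diffCount, Nat.card_eq_fintype_card, Fintype.card_subtype,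
    ← Fintype.sum_prod_type (f := fun p : Fin n × Fin n => neq (A p.1 p.2) (B p.1 p.2))]
  rw [Finset.card_filter, Nat.cast_sum]
  refine Finset.sum_congr rfl fun p _ => ?_
  simp only [neq]
  split_ifs <;> simp_all

/-- A monotone retraction of `Fin B` on a nonempty subset. -/
theorem exists_retraction {B : ℕ} (s : Finset (Fin B)) (hs : s.Nonempty) :
    ∃ φ : Fin B → Fin B, Monotone φ ∧ (∀ I, φ I ∈ s) ∧ ∀ I ∈ s, φ I = I := by
  refine ⟨fun I => if h : (s.filter (· ≤ I)).Nonempty then (s.filter (· ≤ I)).max' h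
    else s.min' hs, ?_, ?_, ?_⟩
  · intro I J hIJ
    simp only
    by_cases hI : (s.filter (· ≤ I)).Nonempty
    · have hm := Finset.mem_filter.1 ((s.filter (· ≤ I)).max'_mem hI)
      have hmem : (s.filter (· ≤ I)).max' hI ∈ s.filter (· ≤ J) :=
        Finset.mem_filter.2 ⟨hm.1, hm.2.trans hIJ⟩
      rw [dif_pos hI, dif_pos ⟨_, hmem⟩]
      exact Finset.le_max' _ _ hmem
    · rw [dif_neg hI]
      split_ifs with hJ
      · exact Finset.min'_le _ _ (Finset.mem_filter.1 (Finset.max'_mem _ hJ)).1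
      · exact le_rfl
  · intro I
    simp only
    split_ifs with h
    · exact (Finset.mem_filter.1 (Finset.max'_mem _ h)).1
    · exact s.min'_mem hs
  · intro I hI
    simp only
    have hmem : I ∈ s.filter (· ≤ I) := Finset.mem_filter.2 ⟨hI, le_rfl⟩
    rw [dif_pos ⟨I, hmem⟩]
    exact le_antisymm (Finset.mem_filter.1 ((s.filter (· ≤ I)).max'_mem ⟨I, hmem⟩)).2
      (Finset.le_max' _ _ hmem)

/-- Expected weight of the versions of the keys. -/
theorem expect_le {n k b B : ℕ} (hB : 0 < B) (τ : Fin n → Fin n) (S : RepSystem n k B)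
    (hM : ∀ a j r, ∑ ω, S.w ω * (if a ∈ S.G ω ∧ S.ver ω a j = r then (1 : ℝ) else 0) ≤
      if key hB τ r = a then 8 * (b : ℝ) / keyCard τ a else 0)
    {θ : ℝ} (hθ : ∀ ω, ∀ a ∈ S.G ω, θ ≤ (keyCard τ a : ℝ))
    (wt : Fin B × Fin n → ℝ) (hwt : ∀ a, 0 ≤ wt a) {L : ℝ}
    (hwL : ∀ a, θ ≤ (keyCard τ a : ℝ) → wt a * (8 * (b : ℝ) / keyCard τ a) ≤ L) (hL : 0 ≤ L)
    (g : Fin n → ℝ) (hg : ∀ x, 0 ≤ g x) (j : Fin k) :
    ∑ ω, S.w ω * ∑ a ∈ S.G ω, wt a * g (S.ver ω a j) ≤ L * ∑ x, g x := by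
  classical
  have e : ∀ ω, ∑ a ∈ S.G ω, wt a * g (S.ver ω a j)
      = ∑ x, g x * ∑ a, wt a * (if a ∈ S.G ω ∧ S.ver ω a j = x then (1 : ℝ) else 0) := by
    intro ω
    simp only [Finset.mul_sum]
    rw [Finset.sum_comm, ← Finset.sum_filter_add_sum_filter_not (Finset.univ) (· ∈ S.G ω)
      (f := fun a => ∑ x, g x * (wt a * (if a ∈ S.G ω ∧ S.ver ω a j = x then (1 : ℝ) else 0)))]
    rw [Finset.filter_univ_mem]
    rw [Finset.sum_eq_zero (s := Finset.univ.filter (fun a => ¬ a ∈ S.G ω)), add_zero]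
    · refine Finset.sum_congr rfl fun a ha => ?_
      simp [ha, mul_comm]
    · intro a ha
      simp [(Finset.mem_filter.1 ha).2]
  calc _ = ∑ x, g x * ∑ a, wt a *
        ∑ ω, S.w ω * (if a ∈ S.G ω ∧ S.ver ω a j = x then (1 : ℝ) else 0) := by
        simp only [e, Finset.mul_sum]
        rw [Finset.sum_comm]
        refine Finset.sum_congr rfl fun x _ => ?_
        rw [Finset.sum_comm]
        exact Finset.sum_congr rfl fun a _ => Finset.sum_congr rfl fun ω _ => by ring
    _ ≤ ∑ x, g x * L := by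
        refine Finset.sum_le_sum fun x _ => mul_le_mul_of_nonneg_left ?_ (hg x)
        calc _ ≤ ∑ a, (if key hB τ x = a then L else 0) := by
              refine Finset.sum_le_sum fun a _ => ?_
              by_cases hθ' : θ ≤ (keyCard τ a : ℝ)
              · refine le_trans (mul_le_mul_of_nonneg_left (hM a j x) (hwt a)) ?_
                split_ifs
                · exact hwL a hθ'
                · simp
              · rw [Finset.sum_eq_zero, mul_zero]
                · split_ifs <;> simp [hL]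
                · intro ω _
                  rw [if_neg (fun h => hθ' (hθ ω _ h.1)), mul_zero]
          _ = L := by simp
    _ = L * ∑ x, g x := by rw [← Finset.sum_mul]; ring

/-- Expected weight of pairs of versions, rows and columns being independent. -/
theorem expect₂_le {n k b B : ℕ} (hB : 0 < B) (τ τc : Fin n → Fin n) (S T : RepSystem n k B)
    (hS : ∀ a j r, ∑ ω, S.w ω * (if a ∈ S.G ω ∧ S.ver ω a j = r then (1 : ℝ) else 0) ≤
      if key hB τ r = a then 8 * (b : ℝ) / keyCard τ a else 0)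
    (hT : ∀ a j r, ∑ ω, T.w ω * (if a ∈ T.G ω ∧ T.ver ω a j = r then (1 : ℝ) else 0) ≤
      if key hB τc r = a then 8 * (b : ℝ) / keyCard τc a else 0)
    (hw : ∀ ω, 0 ≤ S.w ω) {θ : ℝ} (hθS : ∀ ω, ∀ a ∈ S.G ω, θ ≤ (keyCard τ a : ℝ))
    (hθT : ∀ ω, ∀ a ∈ T.G ω, θ ≤ (keyCard τc a : ℝ))
    (wt wt' : Fin B × Fin n → ℝ) (hwt : ∀ a, 0 ≤ wt a) (hwt' : ∀ a, 0 ≤ wt' a) {L : ℝ}
    (hwL : ∀ a, θ ≤ (keyCard τ a : ℝ) → wt a * (8 * (b : ℝ) / keyCard τ a) ≤ L)
    (hwL' : ∀ a, θ ≤ (keyCard τc a : ℝ) → wt' a * (8 * (b : ℝ) / keyCard τc a) ≤ L) (hL : 0 ≤ L)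
    (g : Fin n → Fin n → ℝ) (hg : ∀ x y, 0 ≤ g x y) (i j : Fin k) :
    ∑ ω, S.w ω * ∑ ω', T.w ω' *
        ∑ a ∈ S.G ω, ∑ c ∈ T.G ω', wt a * wt' c * g (S.ver ω a i) (T.ver ω' c j)
      ≤ L * L * ∑ x, ∑ y, g x y := by
  have h1 : ∀ x, ∑ ω', T.w ω' * ∑ c ∈ T.G ω', wt' c * g x (T.ver ω' c j)
      ≤ L * ∑ y, g x y :=
    fun x => expect_le hB τc T hT hθT wt' hwt' hwL' hL (g x) (hg x) j
  calc _ ≤ ∑ ω, S.w ω * ∑ a ∈ S.G ω, wt a * (L * ∑ y, g (S.ver ω a i) y) := by
        refine Finset.sum_le_sum fun ω _ => mul_le_mul_of_nonneg_left ?_ (hw ω)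
        simp only [Finset.mul_sum]
        rw [Finset.sum_comm]
        refine Finset.sum_le_sum fun a _ => ?_
        simp only [← Finset.mul_sum]
        refine le_trans (le_of_eq ?_) (mul_le_mul_of_nonneg_left (h1 (S.ver ω a i)) (hwt a))
        simp only [Finset.mul_sum]
        exact Finset.sum_congr rfl fun ω' _ => Finset.sum_congr rfl fun c _ => by ring
    _ ≤ L * ∑ x, L * ∑ y, g x y :=
        expect_le hB τ S hS hθS wt hwt hwL hL _
          (fun x => mul_nonneg hL (Finset.sum_nonneg fun y _ => hg x y)) i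
    _ = _ := by rw [← Finset.mul_sum]; ring

theorem sum_fibre_le {n B : ℕ} (hB : 0 < B) (τ : Fin n → Fin n) (G : Finset (Fin B × Fin n))
    (f : Fin n → ℝ) (hf : ∀ r, 0 ≤ f r) :
    ∑ a ∈ G, ∑ r ∈ Finset.univ.filter (fun r => key hB τ r = a), f r ≤ ∑ r, f r := by
  rw [← Finset.sum_fiberwise_of_maps_to (g := key hB τ) (fun r _ => Finset.mem_univ _) f]
  exact Finset.sum_le_sum_of_subset_of_nonneg (Finset.subset_univ _)
    fun a _ _ => Finset.sum_nonneg fun r _ => hf r

theorem sum_fibre_const {n B : ℕ} (hB : 0 < B) (τ : Fin n → Fin n) (a : Fin B × Fin n) (x : ℝ) :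
    ∑ _r ∈ Finset.univ.filter (fun r => key hB τ r = a), x = keyCard τ a * x := by
  rw [Finset.sum_const, nsmul_eq_mul, keyCard_eq hB]

/-- Defect of the representatives on pairs of keys. -/
noncomputable def pairDefect {n k B : ℕ} (hB : 0 < B) (z : Fin k) (A : Fin n → Fin n → Bool)
    (τ τc : Fin n → Fin n) (G G' : Finset (Fin B × Fin n))
    (v v' : Fin B × Fin n → Fin k → Fin n) : ℝ :=
  ∑ a ∈ G, ∑ c ∈ G', ∑ r ∈ Finset.univ.filter (fun r => key hB τ r = a),
    ∑ q ∈ Finset.univ.filter (fun q => key hB τc q = c),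
      (neq (A r q) (A (τ r) q) + neq (A (v a z) q) (A (τ (v a z)) q)
        + neq (A (v a z) q) (A (v a z) (τc q))
        + neq (A (v a z) (v' c z)) (A (v a z) (τc (v' c z))))

theorem pairDefect_le {n k B : ℕ} (hB : 0 < B) (z : Fin k) (A : Fin n → Fin n → Bool)
    (τ τc : Fin n → Fin n) (G G' : Finset (Fin B × Fin n))
    (v v' : Fin B × Fin n → Fin k → Fin n) :
    pairDefect hB z A τ τc G G' v v' ≤ (∑ r, dis A r (τ r))
      + (∑ a ∈ G, (keyCard τ a : ℝ) * dis A (v a z) (τ (v a z)))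
      + (∑ a ∈ G, (keyCard τ a : ℝ) * ∑ q, neq (A (v a z) q) (A (v a z) (τc q)))
      + (∑ a ∈ G, ∑ c ∈ G', (keyCard τ a : ℝ) * keyCard τc c *
          neq (A (v a z) (v' c z)) (A (v a z) (τc (v' c z)))) := by
  simp only [pairDefect, Finset.sum_add_distrib, sum_fibre_const, ← Finset.mul_sum]
  gcongr ?_ + ?_ + ?_ + ?_
  · refine le_trans (Finset.sum_le_sum fun a _ => ?_)
      (sum_fibre_le hB τ G (fun r => dis A r (τ r)) (fun r => dis_nonneg A r _))
    rw [Finset.sum_comm]
    refine Finset.sum_le_sum fun r _ => ?_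
    rw [← sum_neq_eq_dis]
    exact sum_fibre_le hB τc G' _ (fun q => neq_nonneg _ _)
  · refine Finset.sum_le_sum fun a _ => mul_le_mul_of_nonneg_left ?_ (Nat.cast_nonneg _)
    rw [← sum_neq_eq_dis]
    exact sum_fibre_le hB τc G' _ (fun q => neq_nonneg _ _)
  · refine Finset.sum_le_sum fun a _ => mul_le_mul_of_nonneg_left ?_ (Nat.cast_nonneg _)
    exact sum_fibre_le hB τc G' _ (fun q => neq_nonneg _ _)
  · apply le_of_eq
    refine Finset.sum_congr rfl fun a _ => ?_
    exact Finset.sum_congr rfl fun c _ => by ring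

/-- Consistent representatives without an ordered tuple forming `H` give a free matrix. -/
theorem exists_free_close {n k B : ℕ} (hk : 0 < k) (hB : 0 < B) (H : Fin k → Fin k → Bool)
    (A : Fin n → Fin n → Bool) (τ τc : Fin n → Fin n) (G G' : Finset (Fin B × Fin n))
    (v v' : Fin B × Fin n → Fin k → Fin n) (hG : G.Nonempty) (hG' : G'.Nonempty)
    (hkey : ∀ a ∈ G, ∀ j, key hB τ (v a j) = a) (hkey' : ∀ a ∈ G', ∀ j, key hB τc (v' a j) = a)
    (hord : ∀ a ∈ G, ∀ a' ∈ G, a.1 ≤ a'.1 → ∀ j j', j < j' → v a j < v a' j')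
    (hord' : ∀ a ∈ G', ∀ a' ∈ G', a.1 ≤ a'.1 → ∀ j j', j < j' → v' a j < v' a' j')
    (hcons : ∀ a ∈ G, ∀ c ∈ G', ∀ i j, A (v a i) (v' c j) = A (v a ⟨0, hk⟩) (v' c ⟨0, hk⟩))
    (hno : ∀ r q, IsCopy H A r q → ¬ ((∀ i, key hB τ (r i) ∈ G ∧ v (key hB τ (r i)) i = r i) ∧
      ∀ i, key hB τc (q i) ∈ G' ∧ v' (key hB τc (q i)) i = q i)) :
    ∃ M : Fin n → Fin n → Bool, IsFree H M ∧
      (diffCount A M : ℝ) ≤ ((n : ℝ) - ∑ a ∈ G, (keyCard τ a : ℝ)) * n
        + ((n : ℝ) - ∑ a ∈ G', (keyCard τc a : ℝ)) * n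
        + pairDefect hB ⟨0, hk⟩ A τ τc G G' v v' := by
  classical
  set z : Fin k := ⟨0, hk⟩
  obtain ⟨φ, hφm, hφmem, hφid⟩ := exists_retraction (G.image Prod.fst) (hG.image _)
  obtain ⟨ψ, hψm, hψmem, hψid⟩ := exists_retraction (G'.image Prod.fst) (hG'.image _)
  have hch : ∀ I, ∃ a ∈ G, a.1 = φ I := fun I => Finset.mem_image.1 (hφmem I)
  have hch' : ∀ I, ∃ a ∈ G', a.1 = ψ I := fun I => Finset.mem_image.1 (hψmem I)
  choose pk hpk hpk1 using hch
  choose pk' hpk' hpk1' using hch'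
  set f : Fin n → Fin B × Fin n :=
    fun r => if key hB τ r ∈ G then key hB τ r else pk (key hB τ r).1 with hf
  set g : Fin n → Fin B × Fin n :=
    fun r => if key hB τc r ∈ G' then key hB τc r else pk' (key hB τc r).1 with hg
  have hfG : ∀ r, f r ∈ G := fun r => by
    simp only [f]; split_ifs with h
    · exact h
    · exact hpk _
  have hgG : ∀ r, g r ∈ G' := fun r => by
    simp only [g]; split_ifs with h
    · exact h
    · exact hpk' _
  have hf1 : ∀ r, (f r).1 = φ (key hB τ r).1 := fun r => by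
    simp only [f]; split_ifs with h
    · exact (hφid _ (Finset.mem_image.2 ⟨_, h, rfl⟩)).symm
    · exact hpk1 _
  have hg1 : ∀ r, (g r).1 = ψ (key hB τc r).1 := fun r => by
    simp only [g]; split_ifs with h
    · exact (hψid _ (Finset.mem_image.2 ⟨_, h, rfl⟩)).symm
    · exact hpk1' _
  refine ⟨fun r q => A (v (f r) z) (v' (g q) z), ?_, ?_⟩
  · intro r q hc
    obtain ⟨hr, hq, hH⟩ := hc
    have hfmono : ∀ i i', i ≤ i' → (f (r i)).1 ≤ (f (r i')).1 := fun i i' h => by
      rw [hf1, hf1]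
      exact hφm (node_mono (hr.monotone h))
    have hgmono : ∀ i i', i ≤ i' → (g (q i)).1 ≤ (g (q i')).1 := fun i i' h => by
      rw [hg1, hg1]
      exact hψm (node_mono (hq.monotone h))
    refine hno (fun i => v (f (r i)) i) (fun i => v' (g (q i)) i) ⟨?_, ?_, ?_⟩ ⟨?_, ?_⟩
    · exact fun i i' h => hord _ (hfG _) _ (hfG _) (hfmono i i' h.le) i i' h
    · exact fun i i' h => hord' _ (hgG _) _ (hgG _) (hgmono i i' h.le) i i' h
    · intro i j
      rw [hcons _ (hfG _) _ (hgG _)]
      exact hH i j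
    · intro i
      rw [hkey _ (hfG _)]
      exact ⟨hfG _, rfl⟩
    · intro i
      rw [hkey' _ (hgG _)]
      exact ⟨hgG _, rfl⟩
  · rw [diffCount_eq]
    set d : Fin n → Fin n → ℝ := fun r q => neq (A r q) (A (v (f r) z) (v' (g q) z))
    have hd1 : ∀ r q, d r q ≤ 1 := fun r q => neq_le_one _ _
    have hd0 : ∀ r q, 0 ≤ d r q := fun r q => neq_nonneg _ _
    set gr := Finset.univ.filter (fun r => key hB τ r ∈ G) with hgr
    set gc := Finset.univ.filter (fun r => key hB τc r ∈ G') with hgc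
    have hcard : (gr.card : ℝ) = ∑ a ∈ G, (keyCard τ a : ℝ) := by
      rw [Finset.card_eq_sum_card_fiberwise (f := key hB τ) (s := gr) (t := G)
        (fun r hr => Finset.mem_coe.2 (Finset.mem_filter.1 (Finset.mem_coe.1 hr)).2)]
      push_cast
      refine Finset.sum_congr rfl fun a ha => ?_
      rw [keyCard_eq hB]
      simp only [gr, gc, Finset.filter_filter]
      congr 2
      exact Finset.filter_congr fun r _ => ⟨fun h => h.2, fun h => ⟨h ▸ ha, h⟩⟩
    have hcard' : (gc.card : ℝ) = ∑ a ∈ G', (keyCard τc a : ℝ) := by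
      rw [Finset.card_eq_sum_card_fiberwise (f := key hB τc) (s := gc) (t := G')
        (fun r hr => Finset.mem_coe.2 (Finset.mem_filter.1 (Finset.mem_coe.1 hr)).2)]
      push_cast
      refine Finset.sum_congr rfl fun a ha => ?_
      rw [keyCard_eq hB]
      simp only [gr, gc, Finset.filter_filter]
      congr 2
      exact Finset.filter_congr fun r _ => ⟨fun h => h.2, fun h => ⟨h ▸ ha, h⟩⟩
    have hsplit : ∑ r, ∑ q, d r q
        ≤ (Finset.univ \ gr).card * (n : ℝ) + (n : ℝ) * (Finset.univ \ gc).card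
          + ∑ r ∈ gr, ∑ q ∈ gc, d r q := by
      rw [← Finset.sum_sdiff (Finset.subset_univ gr)]
      rw [add_assoc]
      apply add_le_add
      · calc _ ≤ ∑ _r ∈ Finset.univ \ gr, ∑ _q : Fin n, (1 : ℝ) :=
              Finset.sum_le_sum fun r _ => Finset.sum_le_sum fun q _ => hd1 r q
          _ = _ := by simp
      · calc ∑ r ∈ gr, ∑ q, d r q
            = ∑ r ∈ gr, ∑ q ∈ Finset.univ \ gc, d r q + ∑ r ∈ gr, ∑ q ∈ gc, d r q := by
              rw [← Finset.sum_add_distrib]
              exact Finset.sum_congr rfl fun r _ => (Finset.sum_sdiff (Finset.subset_univ gc)).symm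
          _ ≤ _ := by
              apply add_le_add _ le_rfl
              calc _ ≤ ∑ _r : Fin n, ∑ _q ∈ Finset.univ \ gc, (1 : ℝ) :=
                    (Finset.sum_le_sum fun r _ => Finset.sum_le_sum fun q _ => hd1 r q).trans
                      (Finset.sum_le_sum_of_subset_of_nonneg (Finset.subset_univ _)
                        fun r _ _ => by positivity)
                _ = _ := by simp
    have hpair : ∑ r ∈ gr, ∑ q ∈ gc, d r q ≤ pairDefect hB z A τ τc G G' v v' := by
      rw [← Finset.sum_fiberwise_of_maps_to (g := key hB τ)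
        (fun r hr => (Finset.mem_filter.1 hr).2 : ∀ r ∈ gr, key hB τ r ∈ G)]
      refine Finset.sum_le_sum fun a ha => ?_
      rw [Finset.sum_comm' (t' := gc) (s' := fun _ => gr.filter (fun r => key hB τ r = a))
        (fun x y => Iff.rfl)]
      rw [← Finset.sum_fiberwise_of_maps_to (g := key hB τc)
        (fun r hr => (Finset.mem_filter.1 hr).2 : ∀ r ∈ gc, key hB τc r ∈ G')]
      refine Finset.sum_le_sum fun c hc => ?_
      rw [Finset.sum_comm]
      trans ∑ r ∈ Finset.univ.filter (fun r => key hB τ r = a),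
        ∑ q ∈ Finset.univ.filter (fun q => key hB τc q = c), d r q
      · apply le_of_eq
        refine Finset.sum_congr ?_ fun r _ => Finset.sum_congr ?_ fun q _ => rfl
        · ext r; simp only [gr, Finset.mem_filter, Finset.mem_univ, true_and]
          exact ⟨fun h => h.2, fun h => ⟨h ▸ ha, h⟩⟩
        · ext r; simp only [gc, Finset.mem_filter, Finset.mem_univ, true_and]
          exact ⟨fun h => h.2, fun h => ⟨h ▸ hc, h⟩⟩
      refine Finset.sum_le_sum fun r hr => Finset.sum_le_sum fun q hq => ?_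
      simp only [Finset.mem_filter, Finset.mem_univ, true_and] at hr hq
      have ef : f r = a := by simp only [f, hr, if_pos ha]
      have eg : g q = c := by simp only [g, hq, if_pos hc]
      simp only [d, ef, eg]
      have e1 : τ (v a z) = τ r := by
        have h1 := congrArg Prod.snd (hkey a ha z)
        have h2 := congrArg Prod.snd hr
        exact h1.trans h2.symm
      have e2 : τc (v' c z) = τc q := by
        have h1 := congrArg Prod.snd (hkey' c hc z)
        have h2 := congrArg Prod.snd hq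
        exact h1.trans h2.symm
      rw [e1, e2]
      exact neq_chain _ _ _ _ _
    have e3 : ((Finset.univ \ gr).card : ℝ) = (n : ℝ) - ∑ a ∈ G, (keyCard τ a : ℝ) := by
      rw [← hcard, Finset.cast_card_sdiff (Finset.subset_univ _)]; simp
    have e4 : ((Finset.univ \ gc).card : ℝ) = (n : ℝ) - ∑ a ∈ G', (keyCard τc a : ℝ) := by
      rw [← hcard', Finset.cast_card_sdiff (Finset.subset_univ _)]; simp
    rw [e3, e4] at hsplit
    linarith

end Vale.Agent.P037
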