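import Mathlib

/-!
Energy and entropy of a labelling along nested interval partitions.
-/

namespace Vale.Agent.P037

open Finset

/-- Index of the interval containing `r` when `Fin n` is split into `B` intervals. -/
def node {n : ℕ} (B : ℕ) (r : Fin n) : ℕ := r.val * B / n

theorem node_lt {n B : ℕ} (hB : 0 < B) (r : Fin n) : node B r < B := by
  have hn : 0 < n := Nat.lt_of_le_of_lt (Nat.zero_le _) r.isLt
  rw [node, Nat.div_lt_iff_lt_mul hn, mul_comm B n]
  exact Nat.mul_lt_mul_of_pos_right r.isLt hB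

theorem node_mono {n B : ℕ} {r r' : Fin n} (h : r ≤ r') : node B r ≤ node B r' :=
  Nat.div_le_div_right (Nat.mul_le_mul_right _ h)

theorem lt_of_node_lt {n B : ℕ} {r r' : Fin n} (h : node B r < node B r') : r < r' :=
  lt_of_not_ge fun h' => absurd (node_mono h') (not_le.2 h)

theorem node_mul_div {n B M : ℕ} (hM : 0 < M) (r : Fin n) : node (B * M) r / M = node B r := by
  rw [node, node, Nat.div_div_eq_div_mul, ← mul_assoc, Nat.mul_div_mul_right _ _ hM]

theorem node_fiber_card {n B : ℕ} (_hB : 0 < B) (w : ℕ) :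
    (Finset.univ.filter (fun r : Fin n => node B r = w)).card * B ≤ n + B := by
  rcases (Finset.univ.filter (fun r : Fin n => node B r = w)).eq_empty_or_nonempty with h | h
  · simp [h]
  · set S := Finset.univ.filter (fun r : Fin n => node B r = w) with hS
    have hsub : S ⊆ Finset.Icc (S.min' h) (S.max' h) :=
      fun x hx => Finset.mem_Icc.2 ⟨S.min'_le x hx, S.le_max' x hx⟩
    have hc : S.card ≤ (S.max' h).val + 1 - (S.min' h).val := by
      simpa using Finset.card_le_card hsub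
    have h1 : node B (S.min' h) = w := (Finset.mem_filter.1 (S.min'_mem h)).2
    have h2 : node B (S.max' h) = w := (Finset.mem_filter.1 (S.max'_mem h)).2
    have hn : 0 < n := Nat.lt_of_le_of_lt (Nat.zero_le _) (S.min' h).isLt
    unfold node at h1 h2
    have e1 := Nat.div_add_mod ((S.min' h).val * B) n
    have e2 := Nat.div_add_mod ((S.max' h).val * B) n
    have e3 := Nat.mod_lt ((S.max' h).val * B) hn
    rw [h1] at e1
    rw [h2] at e2
    have hle : (S.min' h).val ≤ (S.max' h).val := S.min'_le _ (S.max'_mem h)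
    obtain ⟨D, hD⟩ := Nat.exists_eq_add_of_le hle
    rw [hD] at e2 e3 hc
    have hc' : S.card ≤ D + 1 := by omega
    have hSB : S.card * B ≤ (D + 1) * B := Nat.mul_le_mul_right _ hc'
    have h3 := Nat.mod_lt ((S.min' h).val * B) hn
    rw [add_mul] at e2 e3 hSB
    omega

theorem sum_range_mul_split {β : Type*} [AddCommMonoid β] (f : ℕ → β) (B M : ℕ) :
    ∑ w ∈ range (B * M), f w = ∑ I ∈ range B, ∑ o ∈ range M, f (I * M + o) := by
  induction B with
  | zero => simp
  | succ B ih => rw [Nat.succ_mul, Finset.sum_range_add, ih, Finset.sum_range_succ]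

variable {n : ℕ} {ι : Type*} [DecidableEq ι]

/-- Number of elements of the `w`-th interval with label `s`. -/
def cnt (B : ℕ) (σ : Fin n → ι) (w : ℕ) (s : ι) : ℕ :=
  (Finset.univ.filter (fun r => node B r = w ∧ σ r = s)).card

/-- The labels that occur. -/
def labels (σ : Fin n → ι) : Finset ι := Finset.univ.image σ

theorem cnt_eq_zero_of_not_mem (B : ℕ) (σ : Fin n → ι) (w : ℕ) {s : ι} (hs : s ∉ labels σ) :
    cnt B σ w s = 0 := by
  rw [cnt, Finset.card_eq_zero, Finset.filter_eq_empty_iff]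
  intro r _ h
  exact hs (Finset.mem_image.2 ⟨r, Finset.mem_univ _, h.2⟩)

theorem sum_cnt {B : ℕ} (hB : 0 < B) (σ : Fin n → ι) :
    ∑ w ∈ range B, ∑ s ∈ labels σ, cnt B σ w s = n := by
  have h := Finset.card_eq_sum_card_fiberwise (f := fun r => (node B r, σ r))
    (s := (Finset.univ : Finset (Fin n))) (t := range B ×ˢ labels σ)
    (fun r _ => Finset.mem_product.2
      ⟨Finset.mem_range.2 (node_lt hB r), Finset.mem_image.2 ⟨r, Finset.mem_univ _, rfl⟩⟩)
  rw [Finset.card_univ, Fintype.card_fin, Finset.sum_product] at h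
  conv_rhs => rw [h]
  simp only [cnt, Prod.mk.injEq]

theorem cnt_split {B M : ℕ} (hM : 0 < M) (σ : Fin n → ι) (I : ℕ) (s : ι) :
    cnt B σ I s = ∑ o ∈ range M, cnt (B * M) σ (I * M + o) s := by
  have h := Finset.card_eq_sum_card_fiberwise (f := fun r => node (B * M) r % M)
    (s := Finset.univ.filter (fun r : Fin n => node B r = I ∧ σ r = s)) (t := range M)
    (fun r _ => Finset.mem_range.2 (Nat.mod_lt _ hM))
  rw [cnt, h]
  apply Finset.sum_congr rfl
  intro o ho
  rw [Finset.mem_range] at ho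
  rw [cnt, Finset.filter_filter]
  congr 1
  apply Finset.filter_congr
  intro r _
  constructor
  · rintro ⟨⟨h1, h2⟩, h3⟩
    refine ⟨?_, h2⟩
    have e := Nat.div_add_mod' (node (B * M) r) M
    rw [node_mul_div hM r, h1, h3] at e
    exact e.symm
  · rintro ⟨h1, h2⟩
    refine ⟨⟨?_, h2⟩, ?_⟩
    · rw [← node_mul_div hM r, h1, Nat.add_comm, Nat.add_mul_div_right _ _ hM,
        Nat.div_eq_of_lt ho, Nat.zero_add]
    · rw [h1, Nat.add_comm, Nat.add_mul_mod_self_right, Nat.mod_eq_of_lt ho]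

theorem cnt_le {B : ℕ} (hB : 0 < B) (hBn : B ≤ n) (σ : Fin n → ι) (w : ℕ) (s : ι) :
    (cnt B σ w s : ℝ) * B ≤ 2 * n := by
  have h1 : cnt B σ w s * B ≤ n + B := by
    refine le_trans (Nat.mul_le_mul_right _ ?_) (node_fiber_card (n := n) hB w)
    apply Finset.card_le_card
    intro r hr
    simp only [Finset.mem_filter, Finset.mem_univ, true_and] at hr ⊢
    exact hr.1
  have : cnt B σ w s * B ≤ 2 * n := by omega
  exact_mod_cast this

/-- The energy of the labelling at `B` intervals. -/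
noncomputable def energy (B : ℕ) (σ : Fin n → ι) : ℝ :=
  (B : ℝ) * ∑ w ∈ range B, ∑ s ∈ labels σ, (cnt B σ w s : ℝ) ^ 2

theorem energy_nonneg (B : ℕ) (σ : Fin n → ι) : 0 ≤ energy B σ := by
  unfold energy; positivity

theorem energy_le {B : ℕ} (hB : 0 < B) (hBn : B ≤ n) (σ : Fin n → ι) :
    energy B σ ≤ 2 * (n : ℝ) ^ 2 := by
  have h : (∑ w ∈ range B, ∑ s ∈ labels σ, (cnt B σ w s : ℝ)) = n := by
    exact_mod_cast sum_cnt hB σ
  calc energy B σ = ∑ w ∈ range B, ∑ s ∈ labels σ, (cnt B σ w s : ℝ) * B * cnt B σ w s := by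
        rw [energy, Finset.mul_sum]
        apply Finset.sum_congr rfl
        intro w _
        rw [Finset.mul_sum]
        exact Finset.sum_congr rfl fun s _ => by ring
    _ ≤ ∑ w ∈ range B, ∑ s ∈ labels σ, 2 * (n : ℝ) * cnt B σ w s := by
        refine Finset.sum_le_sum fun w _ => Finset.sum_le_sum fun s _ => ?_
        exact mul_le_mul_of_nonneg_right (cnt_le hB hBn σ w s) (Nat.cast_nonneg _)
    _ = _ := by
        simp only [← Finset.mul_sum]
        rw [h]
        ring

theorem energy_sub {B M : ℕ} (hB : 0 < B) (hM : 0 < M) (σ : Fin n → ι) :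
    ∑ I ∈ range B, ∑ s ∈ labels σ, ∑ o ∈ range M,
        ((M : ℝ) * cnt (B * M) σ (I * M + o) s - cnt B σ I s) ^ 2
      = (M : ℝ) / B * (energy (B * M) σ - energy B σ) := by
  have hin : ∀ I s, ∑ o ∈ range M, ((M : ℝ) * cnt (B * M) σ (I * M + o) s - cnt B σ I s) ^ 2
      = (M : ℝ) ^ 2 * (∑ o ∈ range M, (cnt (B * M) σ (I * M + o) s : ℝ) ^ 2)
        - (M : ℝ) * (cnt B σ I s : ℝ) ^ 2 := by
    intro I s
    have hs : (∑ o ∈ range M, (cnt (B * M) σ (I * M + o) s : ℝ)) = cnt B σ I s := by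
      exact_mod_cast (cnt_split hM σ I s).symm
    have e : ∀ o, ((M : ℝ) * cnt (B * M) σ (I * M + o) s - cnt B σ I s) ^ 2
        = (M : ℝ) ^ 2 * (cnt (B * M) σ (I * M + o) s : ℝ) ^ 2
          - 2 * M * cnt B σ I s * cnt (B * M) σ (I * M + o) s + (cnt B σ I s : ℝ) ^ 2 :=
      fun o => by ring
    simp only [e, Finset.sum_add_distrib, Finset.sum_sub_distrib, ← Finset.mul_sum, hs,
      Finset.sum_const, Finset.card_range, nsmul_eq_mul]
    ring
  simp only [hin, Finset.sum_sub_distrib, ← Finset.mul_sum]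
  have hswap : ∑ I ∈ range B, ∑ s ∈ labels σ, ∑ o ∈ range M,
      (cnt (B * M) σ (I * M + o) s : ℝ) ^ 2
      = ∑ w ∈ range (B * M), ∑ s ∈ labels σ, (cnt (B * M) σ w s : ℝ) ^ 2 := by
    rw [sum_range_mul_split]
    exact Finset.sum_congr rfl fun I _ => Finset.sum_comm
  rw [hswap, energy, energy]
  push_cast
  field_simp

theorem energy_mono {B M : ℕ} (hB : 0 < B) (hM : 0 < M) (σ : Fin n → ι) :
    energy B σ ≤ energy (B * M) σ := by
  have h := energy_sub hB hM σ
  have h0 : 0 ≤ ∑ I ∈ range B, ∑ s ∈ labels σ, ∑ o ∈ range M,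
      ((M : ℝ) * cnt (B * M) σ (I * M + o) s - cnt B σ I s) ^ 2 := by positivity
  rw [h] at h0
  have : (0 : ℝ) < (M : ℝ) / B := by positivity
  nlinarith [(mul_nonneg_iff_of_pos_left this).1 h0]

theorem deviation_le {B M : ℕ} (hB : 0 < B) (hM : 0 < M) (σ : Fin n → ι) {m : ℕ}
    (hm : (labels σ).card ≤ m) :
    ∑ I ∈ range B, ∑ s ∈ labels σ, ∑ o ∈ range M,
        |(M : ℝ) * cnt (B * M) σ (I * M + o) s - cnt B σ I s|
      ≤ (M : ℝ) * Real.sqrt (m * (energy (B * M) σ - energy B σ)) := by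
  have h := energy_sub hB hM σ
  have hd : 0 ≤ energy (B * M) σ - energy B σ := sub_nonneg.2 (energy_mono hB hM σ)
  set S := (range B ×ˢ labels σ) ×ˢ range M with hS
  set g : (ℕ × ι) × ℕ → ℝ :=
    fun p => |(M : ℝ) * cnt (B * M) σ (p.1.1 * M + p.2) p.1.2 - cnt B σ p.1.1 p.1.2| with hg
  have e1 : ∑ I ∈ range B, ∑ s ∈ labels σ, ∑ o ∈ range M,
      |(M : ℝ) * cnt (B * M) σ (I * M + o) s - cnt B σ I s| = ∑ p ∈ S, g p := by
    simp only [S, g, Finset.sum_product]
  have e2 : ∑ p ∈ S, g p ^ 2 = (M : ℝ) / B * (energy (B * M) σ - energy B σ) := by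
    rw [← h]
    simp only [S, g, Finset.sum_product, sq_abs]
  have hcard : (S.card : ℝ) ≤ B * m * M := by
    have : S.card ≤ B * m * M := by
      simp only [S, Finset.card_product, Finset.card_range]
      gcongr
    exact_mod_cast this
  rw [e1]
  have hcs := sq_sum_le_card_mul_sum_sq (s := S) (f := g)
  rw [e2] at hcs
  have h2 : (∑ p ∈ S, g p) ^ 2 ≤ (M : ℝ) ^ 2 * (m * (energy (B * M) σ - energy B σ)) := by
    refine hcs.trans ?_
    calc (S.card : ℝ) * ((M : ℝ) / B * (energy (B * M) σ - energy B σ))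
        ≤ (B * m * M : ℝ) * ((M : ℝ) / B * (energy (B * M) σ - energy B σ)) :=
          mul_le_mul_of_nonneg_right hcard (mul_nonneg (by positivity) hd)
      _ = _ := by field_simp
  have h0 : 0 ≤ ∑ p ∈ S, g p := Finset.sum_nonneg fun p _ => abs_nonneg _
  calc ∑ p ∈ S, g p = Real.sqrt ((∑ p ∈ S, g p) ^ 2) := (Real.sqrt_sq h0).symm
    _ ≤ Real.sqrt ((M : ℝ) ^ 2 * (m * (energy (B * M) σ - energy B σ))) := Real.sqrt_le_sqrt h2
    _ = _ := by rw [Real.sqrt_mul (by positivity), Real.sqrt_sq (by positivity)]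

theorem mul_log_ge {a y : ℝ} (ha : 0 < a) (hy : 0 ≤ y) :
    y - a + (Real.sqrt y - Real.sqrt a) ^ 2 ≤ y * Real.log (y / a) := by
  rcases hy.eq_or_lt with rfl | hy'
  · simp [Real.sq_sqrt ha.le]
  · set x := Real.sqrt y
    set c := Real.sqrt a
    have hx : 0 < x := Real.sqrt_pos.2 hy'
    have hc : 0 < c := Real.sqrt_pos.2 ha
    have hxy : x ^ 2 = y := Real.sq_sqrt hy
    have hca : c ^ 2 = a := Real.sq_sqrt ha.le
    rw [← hxy, ← hca]
    have h := Real.one_sub_inv_le_log_of_pos (div_pos hx hc)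
    rw [inv_div] at h
    have e : Real.log (x ^ 2 / c ^ 2) = 2 * Real.log (x / c) := by
      rw [← div_pow, Real.log_pow]; norm_num
    rw [e]
    have h2 : x ^ 2 * (2 * (1 - c / x)) ≤ x ^ 2 * (2 * Real.log (x / c)) :=
      mul_le_mul_of_nonneg_left (by linarith) (sq_nonneg x)
    have h3 : x ^ 2 * (2 * (1 - c / x)) = x ^ 2 - c ^ 2 + (x - c) ^ 2 := by field_simp; ring
    linarith

/-- The relative entropy of the labelling at `B` intervals. -/
noncomputable def ent (B : ℕ) (σ : Fin n → ι) : ℝ :=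
  ∑ w ∈ range B, ∑ s ∈ labels σ, (cnt B σ w s : ℝ) * Real.log ((cnt B σ w s : ℝ) * B / n)

theorem ent_le {B : ℕ} (hn : 0 < n) (hB : 0 < B) (hBn : B ≤ n) (σ : Fin n → ι) :
    ent B σ ≤ n * Real.log 2 := by
  have h : (∑ w ∈ range B, ∑ s ∈ labels σ, (cnt B σ w s : ℝ)) = n := by
    exact_mod_cast sum_cnt hB σ
  calc ent B σ ≤ ∑ w ∈ range B, ∑ s ∈ labels σ, (cnt B σ w s : ℝ) * Real.log 2 := by
        refine Finset.sum_le_sum fun w _ => Finset.sum_le_sum fun s _ => ?_
        rcases Nat.eq_zero_or_pos (cnt B σ w s) with h0 | h0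
        · simp [h0]
        · apply mul_le_mul_of_nonneg_left _ (Nat.cast_nonneg _)
          apply Real.log_le_log (by positivity)
          rw [div_le_iff₀ (by exact_mod_cast hn)]
          exact cnt_le hB hBn σ w s
    _ = _ := by simp only [← Finset.sum_mul]; rw [h]

theorem le_ent {B m : ℕ} (hn : 0 < n) (hB : 0 < B) (σ : Fin n → ι) (hm0 : 0 < m)
    (hm : (labels σ).card ≤ m) : -(n * Real.log m) ≤ ent B σ := by
  have h : (∑ w ∈ range B, ∑ s ∈ labels σ, (cnt B σ w s : ℝ)) = n := by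
    exact_mod_cast sum_cnt hB σ
  set a : ℝ := n / (m * B) with ha
  have ha0 : 0 < a := by positivity
  have hterm : ∀ w s, (cnt B σ w s : ℝ) - a - (cnt B σ w s : ℝ) * Real.log m
      ≤ (cnt B σ w s : ℝ) * Real.log ((cnt B σ w s : ℝ) * B / n) := by
    intro w s
    rcases Nat.eq_zero_or_pos (cnt B σ w s) with h0 | h0
    · simp [h0, ha0.le]
    · have h1 := mul_log_ge ha0 (Nat.cast_nonneg (cnt B σ w s))
      have e : Real.log ((cnt B σ w s : ℝ) / a)
          = Real.log ((cnt B σ w s : ℝ) * B / n) + Real.log m := by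
        rw [← Real.log_mul (by positivity) (by positivity)]
        congr 1
        rw [ha]
        field_simp
      rw [e, mul_add] at h1
      nlinarith [sq_nonneg (Real.sqrt (cnt B σ w s : ℝ) - Real.sqrt a)]
  have hsum : ∑ w ∈ range B, ∑ s ∈ labels σ,
      ((cnt B σ w s : ℝ) - a - (cnt B σ w s : ℝ) * Real.log m) ≤ ent B σ :=
    Finset.sum_le_sum fun w _ => Finset.sum_le_sum fun s _ => hterm w s
  simp only [Finset.sum_sub_distrib, ← Finset.sum_mul, h, Finset.sum_const, Finset.card_range,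
    nsmul_eq_mul] at hsum
  have hcell : (B : ℝ) * ((labels σ).card * a) ≤ n := by
    calc (B : ℝ) * ((labels σ).card * a) ≤ B * ((m : ℝ) * a) := by
          gcongr
      _ = n := by rw [ha]; field_simp
  linarith

/-- Mass of the cells some child of which has less than half its share. -/
noncomputable def nonspan (b B : ℕ) (σ : Fin n → ι) : ℝ :=
  ∑ w ∈ range B, ∑ s ∈ labels σ,
    if ∃ j, j < b ∧ 2 * b * cnt (B * b) σ (w * b + j) s < cnt B σ w s then
      (cnt B σ w s : ℝ) else 0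

theorem nonspan_le {b B : ℕ} (hn : 0 < n) (hB : 0 < B) (hb : 0 < b) (σ : Fin n → ι) :
    nonspan b B σ ≤ 16 * b * (ent (B * b) σ - ent B σ) := by
  have e : ent (B * b) σ = ∑ w ∈ range B, ∑ s ∈ labels σ, ∑ j ∈ range b,
      (cnt (B * b) σ (w * b + j) s : ℝ)
        * Real.log ((cnt (B * b) σ (w * b + j) s : ℝ) * ((B * b : ℕ) : ℝ) / n) := by
    rw [ent, sum_range_mul_split]
    exact Finset.sum_congr rfl fun I _ => Finset.sum_comm
  rw [e, ent, ← Finset.sum_sub_distrib, Finset.mul_sum, nonspan]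
  apply Finset.sum_le_sum
  intro w _
  rw [← Finset.sum_sub_distrib, Finset.mul_sum]
  apply Finset.sum_le_sum
  intro s _
  set Y : ℝ := (cnt B σ w s : ℝ) with hY
  set y : ℕ → ℝ := fun j => (cnt (B * b) σ (w * b + j) s : ℝ) with hy
  have hYsum : ∑ j ∈ range b, y j = Y := by
    simp only [y, Y]
    exact_mod_cast (cnt_split hb σ w s).symm
  have hy0 : ∀ j, 0 ≤ y j := fun j => Nat.cast_nonneg _
  rcases Nat.eq_zero_or_pos (cnt B σ w s) with h0 | h0
  · have hz : ∀ j ∈ range b, y j = 0 :=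
      (Finset.sum_eq_zero_iff_of_nonneg fun j _ => hy0 j).1 (by rw [hYsum, hY, h0]; simp)
    have hsum0 : ∑ j ∈ range b, y j * Real.log (y j * ((B * b : ℕ) : ℝ) / n) = 0 :=
      Finset.sum_eq_zero fun j hj => by rw [hz j hj]; simp
    rw [hY, h0]
    simp only [y] at hsum0
    rw [hsum0]
    simp
  · set a : ℝ := Y / b with ha
    have hY0 : 0 < Y := by rw [hY]; exact_mod_cast h0
    have ha0 : 0 < a := by positivity
    have hterm : ∀ j, y j - a + (Real.sqrt (y j) - Real.sqrt a) ^ 2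
        ≤ y j * Real.log (y j * ((B * b : ℕ) : ℝ) / n) - y j * Real.log (Y * B / n) := by
      intro j
      refine (mul_log_ge ha0 (hy0 j)).trans ?_
      rcases (hy0 j).eq_or_lt with h | h
      · rw [← h]; simp
      · rw [← mul_sub]
        apply le_of_eq
        congr 1
        rw [← Real.log_div (by positivity) (by positivity)]
        congr 1
        rw [ha]
        push_cast
        field_simp
    have hs := Finset.sum_le_sum (fun j (_ : j ∈ range b) => hterm j)
    simp only [Finset.sum_add_distrib, Finset.sum_sub_distrib, ← Finset.sum_mul, hYsum,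
      Finset.sum_const, Finset.card_range, nsmul_eq_mul] at hs
    have hba : (b : ℝ) * a = Y := by rw [ha]; field_simp
    have hsq : ∀ j ∈ range b, 0 ≤ (Real.sqrt (y j) - Real.sqrt a) ^ 2 := fun j _ => sq_nonneg _
    have hsq0 := Finset.sum_nonneg hsq
    split_ifs with hbad
    · obtain ⟨j, hj, hlt⟩ := hbad
      have hlt' : 2 * (b : ℝ) * y j < Y := by
        simp only [y, Y]; exact_mod_cast hlt
      have h1 := Finset.single_le_sum hsq (Finset.mem_range.2 hj)
      have h2 : a / 16 ≤ (Real.sqrt (y j) - Real.sqrt a) ^ 2 := by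
        have hya : y j ≤ a / 2 := by
          rw [ha, div_div, le_div_iff₀ (by positivity)]
          linarith
        have hle : Real.sqrt (y j) ≤ 3 / 4 * Real.sqrt a := by
          rw [Real.sqrt_le_iff]
          refine ⟨by positivity, ?_⟩
          rw [mul_pow, Real.sq_sqrt ha0.le]
          linarith
        have h4 := pow_le_pow_left₀ (by positivity : (0 : ℝ) ≤ Real.sqrt a / 4)
          (by linarith : Real.sqrt a / 4 ≤ Real.sqrt a - Real.sqrt (y j)) 2
        rw [div_pow, Real.sq_sqrt ha0.le] at h4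
        linarith [sub_sq_comm (Real.sqrt (y j)) (Real.sqrt a)]
      have h5 : a / 16 ≤ ∑ j ∈ range b, y j * Real.log (y j * ((B * b : ℕ) : ℝ) / n)
          - Y * Real.log (Y * B / n) := by linarith
      calc Y = 16 * b * (a / 16) := by rw [ha]; field_simp
        _ ≤ _ := mul_le_mul_of_nonneg_left h5 (by positivity)
    · apply mul_nonneg (by positivity)
      linarith

theorem ent_mono {b B : ℕ} (hn : 0 < n) (hB : 0 < B) (hb : 0 < b) (σ : Fin n → ι) :
    ent B σ ≤ ent (B * b) σ := by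
  have h := nonspan_le hn hB hb σ
  have h0 : 0 ≤ nonspan b B σ := Finset.sum_nonneg fun w _ => Finset.sum_nonneg fun s _ => by
    split_ifs <;> positivity
  have : (0 : ℝ) < 16 * b := by positivity
  nlinarith [(mul_nonneg_iff_of_pos_left this).1 (h0.trans h)]

theorem sum_nonspan_le {b B : ℕ} (hn : 0 < n) (hB : 0 < B) (hb : 0 < b) (σ : Fin n → ι) :
    ∀ L, ∑ i ∈ range L, nonspan b (B * b ^ i) σ ≤ 16 * b * (ent (B * b ^ L) σ - ent B σ)
  | 0 => by simp
  | L + 1 => by
    rw [Finset.sum_range_succ, pow_succ, ← mul_assoc]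
    have h1 := sum_nonspan_le hn hB hb σ L
    have h2 := nonspan_le hn (show 0 < B * b ^ L by positivity) hb σ
    linarith

end Vale.Agent.P037
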