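import Mathlib

/-!
Finite product distributions written as weight functions.
-/

namespace Vale.Agent.P037

open Finset

variable {I α J : Type*} [Fintype I] [Fintype α] [Fintype J]

/-- A product of weight functions of total mass one has total mass one. -/
theorem sum_prod_eq_one [DecidableEq I] (w : I → α → ℝ) (hw : ∀ i, ∑ v, w i v = 1) :
    ∑ f : I → α, ∏ i, w i (f i) = 1 := by
  rw [← Fintype.prod_sum]
  simp [hw]

/-- Joint distribution of finitely many distinct coordinates of a product distribution. -/
theorem sum_prod_marginal [DecidableEq I] [DecidableEq α] (w : I → α → ℝ)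
    (hw : ∀ i, ∑ v, w i v = 1) {e : J → I} (he : Function.Injective e) (x : J → α) :
    ∑ f : I → α, (∏ i, w i (f i)) * (if ∀ j, f (e j) = x j then (1 : ℝ) else 0)
      = ∏ j, w (e j) (x j) := by
  have key : ∀ f : I → α, (if ∀ j, f (e j) = x j then (1 : ℝ) else 0)
      = ∏ i, (if ∀ j, e j = i → f i = x j then (1 : ℝ) else 0) := by
    intro f
    by_cases h : ∀ j, f (e j) = x j
    · rw [if_pos h, Finset.prod_eq_one]
      intro i _
      rw [if_pos]
      rintro j rfl
      exact h j
    · rw [if_neg h]
      push Not at h
      obtain ⟨j, hj⟩ := h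
      symm
      apply Finset.prod_eq_zero (Finset.mem_univ (e j))
      rw [if_neg]
      exact fun h' => hj (h' j rfl)
  calc _ = ∑ f : I → α,
        ∏ i, (w i (f i) * (if ∀ j, e j = i → f i = x j then (1 : ℝ) else 0)) := by
        apply Finset.sum_congr rfl
        intro f _
        rw [key f, Finset.prod_mul_distrib]
    _ = ∏ i, ∑ v, w i v * (if ∀ j, e j = i → v = x j then (1 : ℝ) else 0) := by
        rw [← Fintype.prod_sum (fun i v => w i v * (if ∀ j, e j = i → v = x j then (1 : ℝ) else 0))]
    _ = ∏ i ∈ (Finset.univ : Finset J).image e,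
          ∑ v, w i v * (if ∀ j, e j = i → v = x j then (1 : ℝ) else 0) := by
        symm
        apply Finset.prod_subset (Finset.subset_univ _)
        intro i _ hi
        have : ∀ j, e j ≠ i := fun j hj => hi (Finset.mem_image.2 ⟨j, Finset.mem_univ _, hj⟩)
        calc _ = ∑ v, w i v := by
              apply Finset.sum_congr rfl
              intro v _
              rw [if_pos (fun j hj => absurd hj (this j)), mul_one]
          _ = 1 := hw i
    _ = _ := by
        rw [Finset.prod_image (he.injOn)]
        apply Finset.prod_congr rfl
        intro j _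
        rw [Finset.sum_eq_single (x j)]
        · rw [if_pos, mul_one]
          intro j' hj'
          rw [he hj']
        · intro v _ hv
          rw [if_neg, mul_zero]
          exact fun h => hv (h j rfl)
        · intro h
          exact absurd (Finset.mem_univ _) h

/-- Distribution of one coordinate of a product distribution. -/
theorem sum_prod_single [DecidableEq I] [DecidableEq α] (w : I → α → ℝ)
    (hw : ∀ i, ∑ v, w i v = 1) (i₀ : I) (φ : α → ℝ) :
    ∑ f : I → α, (∏ i, w i (f i)) * φ (f i₀) = ∑ v, w i₀ v * φ v := by
  have h : ∀ f : I → α, φ (f i₀) = ∑ v, φ v * (if f i₀ = v then (1 : ℝ) else 0) := by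
    intro f; simp
  calc _ = ∑ f : I → α, ∑ v, φ v * ((∏ i, w i (f i)) *
        (if ∀ _j : Fin 1, f i₀ = v then (1 : ℝ) else 0)) := by
        apply Finset.sum_congr rfl
        intro f _
        rw [h f, Finset.mul_sum]
        apply Finset.sum_congr rfl
        intro v _
        have e : (∀ _j : Fin 1, f i₀ = v) ↔ f i₀ = v := ⟨fun h => h 0, fun h _ => h⟩
        simp only [e]
        ring
    _ = _ := by
        rw [Finset.sum_comm]
        apply Finset.sum_congr rfl
        intro v _
        have hm := sum_prod_marginal w hw (e := fun _ : Fin 1 => i₀)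
          (fun a b _ => Subsingleton.elim a b) (fun _ => v)
        rw [← Finset.mul_sum]
        simp only [Finset.univ_unique, Finset.prod_singleton] at hm
        trans φ v * w i₀ v
        · congr 1
          convert hm using 6
        · ring

/-- A nonnegative average below a bound is below it at a point of positive weight. -/
theorem exists_lt_of_avg_lt (w X : I → ℝ) (hw : ∀ i, 0 ≤ w i) (h1 : ∑ i, w i = 1) {c : ℝ}
    (h : ∑ i, w i * X i < c) : ∃ i, 0 < w i ∧ X i < c := by
  by_contra hne
  push Not at hne
  have : ∀ i, w i * c ≤ w i * X i := by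
    intro i
    rcases (hw i).eq_or_lt with h0 | h0
    · simp [← h0]
    · exact mul_le_mul_of_nonneg_left (hne i h0) h0.le
  have := Finset.sum_le_sum (fun i (_ : i ∈ Finset.univ) => this i)
  rw [← Finset.sum_mul, h1, one_mul] at this
  linarith

end Vale.Agent.P037
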