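import Vale.Agent.P037.Stages

/-!
Random representatives: `k` versions of each key, increasing from one child window to the next.
-/

namespace Vale.Agent.P037

open Finset

/-- A random system of representatives. -/
structure RepSystem (n k B : ℕ) where
  /-- sample space -/
  Ω : Type
  /-- it is finite -/
  fin : Fintype Ω
  /-- weights -/
  w : Ω → ℝ
  /-- keys that receive versions -/
  G : Ω → Finset (Fin B × Fin n)
  /-- versions -/
  ver : Ω → (Fin B × Fin n) → Fin k → Fin n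

attribute [instance] RepSystem.fin

/-- An average over three stages, written stage by stage. -/
theorem sum_three {M : ℕ} {P Q : Fin M → Type} [∀ o, Fintype (P o)] [∀ o, Fintype (Q o)]
    (c : ℝ) (p : ∀ o, P o → ℝ) (q : ∀ o, P o → Q o → ℝ) (F : (Σ o, P o × Q o) → ℝ) :
    ∑ ω : Σ o, P o × Q o, c * (p ω.1 ω.2.1 * q ω.1 ω.2.1 ω.2.2) * F ω
      = c * ∑ o, ∑ φ, p o φ * ∑ v, q o φ v * F ⟨o, (φ, v)⟩ := by
  rw [Fintype.sum_sigma, Finset.mul_sum]
  refine Finset.sum_congr rfl fun o _ => ?_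
  rw [Fintype.sum_prod_type, Finset.mul_sum]
  refine Finset.sum_congr rfl fun φ _ => ?_
  rw [Finset.mul_sum, Finset.mul_sum]
  refine Finset.sum_congr rfl fun v _ => ?_
  ring

section Build

variable {n B : ℕ} (k M b : ℕ) (τ : Fin n → Fin n) (σ : Fin n → Fin n × Fin n) (θ₀ θ₁ : ℝ)

/-- Labels chosen for the keys of a window. -/
abbrev LabelChoice (o : Fin M) : Type :=
  {a // a ∈ good (B := B) M b τ σ θ₀ θ₁ o} → Fin n × Fin n

/-- Elements chosen for the keys of a window. -/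
abbrev PointChoice (o : Fin M) : Type :=
  {a // a ∈ good (B := B) M b τ σ θ₀ θ₁ o} × Fin k → Fin n

/-- Weight of a choice of labels. -/
noncomputable def labelsW (o : Fin M) (φ : LabelChoice (B := B) M b τ σ θ₀ θ₁ o) : ℝ :=
  ∏ a : {a // a ∈ good M b τ σ θ₀ θ₁ o}, labelW M b σ θ₁ o a.1 (φ a)

/-- Weight of a choice of elements. -/
noncomputable def pointsW (o : Fin M) (φ : LabelChoice (B := B) M b τ σ θ₀ θ₁ o)
    (v : PointChoice (B := B) k M b τ σ θ₀ θ₁ o) : ℝ :=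
  ∏ p : {a // a ∈ good M b τ σ θ₀ θ₁ o} × Fin k,
    unif (child M b σ o p.1.1 (φ p.1) p.2) (v p)

/-- The version of a key. -/
noncomputable def verOf (r₀ : Fin n) (o : Fin M) (v : PointChoice (B := B) k M b τ σ θ₀ θ₁ o)
    (a : Fin B × Fin n) (j : Fin k) : Fin n :=
  if h : a ∈ good M b τ σ θ₀ θ₁ o then v (⟨a, h⟩, j) else r₀

variable {k M b τ σ θ₀ θ₁}

theorem sum_pointsW (hn : 0 < n) (o : Fin M) (φ : LabelChoice (B := B) M b τ σ θ₀ θ₁ o) :
    ∑ v : PointChoice k M b τ σ θ₀ θ₁ o, pointsW k M b τ σ θ₀ θ₁ o φ v = 1 :=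
  sum_prod_eq_one _ fun _ => sum_unif hn _

theorem sum_labelsW (h₀ : 0 < θ₀) (o : Fin M) :
    ∑ φ : LabelChoice (B := B) M b τ σ θ₀ θ₁ o, labelsW M b τ σ θ₀ θ₁ o φ = 1 :=
  sum_prod_eq_one (fun a : {a // a ∈ good M b τ σ θ₀ θ₁ o} => labelW M b σ θ₁ o a.1)
    fun a => sum_labelW h₀ a.2

theorem marginal_stage (hn : 0 < n) (hσ : ∀ r, (σ r).1 = τ r) (hkb : k ≤ b) (hb : 0 < b)
    (h₀ : 0 < θ₀) (h₁ : 0 < θ₁) (r₀ : Fin n) (o : Fin M) (a : Fin B × Fin n) (j : Fin k)
    (r : Fin n) :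
    ∑ φ : LabelChoice M b τ σ θ₀ θ₁ o, labelsW M b τ σ θ₀ θ₁ o φ *
        ∑ v : PointChoice k M b τ σ θ₀ θ₁ o, pointsW k M b τ σ θ₀ θ₁ o φ v *
          (if a ∈ good M b τ σ θ₀ θ₁ o ∧ verOf k M b τ σ θ₀ θ₁ r₀ o v a j = r then (1 : ℝ) else 0)
      ≤ if node (B * M) r = win M o a ∧ τ r = a.2 then 8 * (b : ℝ) * M / keyCard τ a else 0 := by
  by_cases ha : a ∈ good M b τ σ θ₀ θ₁ o
  · have hv : ∀ φ : LabelChoice M b τ σ θ₀ θ₁ o,
        ∑ v : PointChoice k M b τ σ θ₀ θ₁ o, pointsW k M b τ σ θ₀ θ₁ o φ v *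
          (if a ∈ good M b τ σ θ₀ θ₁ o ∧ verOf k M b τ σ θ₀ θ₁ r₀ o v a j = r then (1 : ℝ) else 0)
        = unif (child M b σ o a (φ ⟨a, ha⟩) j) r := by
      intro φ
      have h := sum_prod_single
        (fun p : {a // a ∈ good M b τ σ θ₀ θ₁ o} × Fin k =>
          unif (child M b σ o p.1.1 (φ p.1) p.2))
        (fun p => sum_unif hn _) (⟨a, ha⟩, j) (fun x => if x = r then (1 : ℝ) else 0)
      simp only [mul_ite, mul_one, mul_zero, Finset.sum_ite_eq', Finset.mem_univ, if_true] at h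
      simp only [pointsW, verOf, ha, true_and, dite_true, mul_ite, mul_one, mul_zero]
      exact h
    simp only [hv, labelsW]
    rw [sum_prod_single (fun c : {a // a ∈ good M b τ σ θ₀ θ₁ o} => labelW M b σ θ₁ o c.1)
      (fun c => sum_labelW h₀ c.2) ⟨a, ha⟩ (fun s => unif (child M b σ o a s j) r)]
    exact expected_label_le hσ hkb hb h₀ h₁ ha j r
  · simp only [ha, false_and, if_false, mul_zero, Finset.sum_const_zero]
    split_ifs <;> positivity

theorem joint_stage (hn : 0 < n) (hkb : k ≤ b) (h₀ : 0 < θ₀) (h₁ : 0 < θ₁) (r₀ : Fin n)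
    (o : Fin M) (a : Fin k → Fin B × Fin n) (x : Fin k → Fin n) :
    ∑ φ : LabelChoice M b τ σ θ₀ θ₁ o, labelsW M b τ σ θ₀ θ₁ o φ *
        ∑ v : PointChoice k M b τ σ θ₀ θ₁ o, pointsW k M b τ σ θ₀ θ₁ o φ v *
          (if ∀ i, a i ∈ good M b τ σ θ₀ θ₁ o ∧ verOf k M b τ σ θ₀ θ₁ r₀ o v (a i) i = x i
            then (1 : ℝ) else 0)
      ≤ (2 * (b : ℝ) / θ₁) ^ k := by
  have hP : (0 : ℝ) ≤ 2 * (b : ℝ) / θ₁ := by positivity
  calc _ ≤ ∑ φ : LabelChoice (B := B) M b τ σ θ₀ θ₁ o,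
        labelsW M b τ σ θ₀ θ₁ o φ * (2 * (b : ℝ) / θ₁) ^ k := by
        refine Finset.sum_le_sum fun φ _ => ?_
        have hprod0 : 0 ≤ labelsW M b τ σ θ₀ θ₁ o φ :=
          Finset.prod_nonneg fun c _ => labelW_nonneg M b σ θ₁ _ _ _
        rcases hprod0.eq_or_lt with h0 | h0
        · rw [← h0]; simp
        apply mul_le_mul_of_nonneg_left _ h0.le
        by_cases hall : ∀ i, a i ∈ good M b τ σ θ₀ θ₁ o
        · set e : Fin k → {a // a ∈ good M b τ σ θ₀ θ₁ o} × Fin k :=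
            fun i => (⟨a i, hall i⟩, i)
          have hm := sum_prod_marginal
            (fun p : {a // a ∈ good M b τ σ θ₀ θ₁ o} × Fin k =>
              unif (child M b σ o p.1.1 (φ p.1) p.2))
            (fun p => sum_unif hn _) (e := e) (fun i i' h => congrArg Prod.snd h) x
          calc _ = ∑ v : PointChoice k M b τ σ θ₀ θ₁ o, pointsW k M b τ σ θ₀ θ₁ o φ v *
                (if ∀ i, v (e i) = x i then (1 : ℝ) else 0) := by
                refine Finset.sum_congr rfl fun v _ => ?_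
                congr 1
                apply if_congr ?_ rfl rfl
                simp only [verOf, hall, true_and, dite_true, e]
            _ = ∏ i, unif (child M b σ o (a i) (φ ⟨a i, hall i⟩) i) (x i) := by
                refine Eq.trans ?_ hm
                refine Finset.sum_congr rfl fun v _ => ?_
                rw [pointsW]
                congr 1
                split_ifs <;> rfl
            _ ≤ ∏ _i : Fin k, (2 * (b : ℝ) / θ₁) := by
                refine Finset.prod_le_prod (fun i _ => unif_nonneg _ _) (fun i _ => ?_)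
                have hel : φ ⟨a i, hall i⟩ ∈ elig M b σ θ₁ o (a i) := by
                  by_contra h
                  rw [labelsW, Finset.prod_eq_zero
                    (Finset.mem_univ (⟨a i, hall i⟩ : {a // a ∈ good M b τ σ θ₀ θ₁ o}))
                    (by rw [labelW, if_neg h])] at h0
                  exact lt_irrefl _ h0
                refine (unif_child_le hkb h₁ hel i (x i)).trans ?_
                split_ifs
                · simp only [elig, Finset.mem_filter] at hel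
                  have hy1 := hel.2.2.1
                  gcongr
                · exact hP
            _ = (2 * (b : ℝ) / θ₁) ^ k := by rw [Finset.prod_const, Finset.card_univ, Fintype.card_fin]
        · push Not at hall
          obtain ⟨i, hi⟩ := hall
          rw [Finset.sum_eq_zero]
          · positivity
          intro v _
          rw [if_neg, mul_zero]
          intro h
          exact hi (h i).1
    _ = _ := by rw [← Finset.sum_mul, sum_labelsW h₀, one_mul]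

theorem support_stage (hσ : ∀ r, (σ r).1 = τ r) (hkb : k ≤ b) (hb : 0 < b) (hB : 0 < B)
    (hM : 0 < M) (h₁ : 0 < θ₁) (r₀ : Fin n) (o : Fin M)
    (φ : LabelChoice (B := B) M b τ σ θ₀ θ₁ o) (v : PointChoice (B := B) k M b τ σ θ₀ θ₁ o)
    (hφv : labelsW M b τ σ θ₀ θ₁ o φ * pointsW k M b τ σ θ₀ θ₁ o φ v ≠ 0)
    (a : Fin B × Fin n) (ha : a ∈ good M b τ σ θ₀ θ₁ o) (j : Fin k) :
    key hB τ (verOf k M b τ σ θ₀ θ₁ r₀ o v a j) = a ∧
      (∀ j', σ (verOf k M b τ σ θ₀ θ₁ r₀ o v a j) = σ (verOf k M b τ σ θ₀ θ₁ r₀ o v a j')) ∧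
      ∀ a' ∈ good M b τ σ θ₀ θ₁ o, a.1 ≤ a'.1 → ∀ j', j < j' →
        verOf k M b τ σ θ₀ θ₁ r₀ o v a j < verOf k M b τ σ θ₀ θ₁ r₀ o v a' j' := by
  rw [mul_ne_zero_iff] at hφv
  obtain ⟨hL, hV⟩ := hφv
  simp only [labelsW, pointsW, Finset.prod_ne_zero_iff] at hL hV
  have hφ : ∀ c, φ c ∈ elig M b σ θ₁ o c.1 := by
    intro c
    by_contra h
    exact hL c (Finset.mem_univ _) (by rw [labelW, if_neg h])
  have hvc : ∀ (c : {a // a ∈ good M b τ σ θ₀ θ₁ o}) (i : Fin k),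
      node (B * M * b) (v (c, i)) = win M o c.1 * b + i.val ∧ σ (v (c, i)) = φ c := by
    intro c i
    have hmem : v (c, i) ∈ child M b σ o c.1 (φ c) i := by
      by_contra h
      have h2 := unif_child_le hkb h₁ (hφ c) i (v (c, i))
      rw [if_neg h] at h2
      exact hV (c, i) (Finset.mem_univ _) (le_antisymm h2 (unif_nonneg _ _))
    simpa [child] using hmem
  simp only [verOf]
  rw [dif_pos ha]
  refine ⟨?_, ?_, ?_⟩
  · obtain ⟨h1, h2⟩ := hvc ⟨a, ha⟩ j
    have hs := (Finset.mem_filter.1 (hφ ⟨a, ha⟩)).2.1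
    refine Prod.ext (Fin.ext ?_) ?_
    · show node B (v (⟨a, ha⟩, j)) = a.1.val
      rw [← node_mul_div hM, ← node_mul_div hb, h1]
      simp only [win]
      rw [Nat.add_comm, Nat.add_mul_div_right _ _ hb,
        Nat.div_eq_of_lt (lt_of_lt_of_le j.isLt hkb), Nat.zero_add, Nat.add_comm,
        Nat.add_mul_div_right _ _ hM, Nat.div_eq_of_lt o.isLt, Nat.zero_add]
    · show τ (v (⟨a, ha⟩, j)) = a.2
      rw [← hσ, h2]
      exact hs
  · intro j'
    rw [dif_pos ha, (hvc _ j).2, (hvc _ j').2]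
  · intro a' ha' hle j' hjj
    rw [dif_pos ha']
    apply lt_of_node_lt (B := B * M * b)
    rw [(hvc _ j).1, (hvc _ j').1]
    simp only [win]
    have h1 : (a.1.val * M + o.val) * b ≤ (a'.1.val * M + o.val) * b :=
      Nat.mul_le_mul_right _ (Nat.add_le_add_right (Nat.mul_le_mul_right _ hle) _)
    have : j.val < j'.val := hjj
    omega

end Build

/-- The representatives built from a window, labels and elements. -/
noncomputable def mkSystem {n B : ℕ} (k M b : ℕ) (τ : Fin n → Fin n)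
    (σ : Fin n → Fin n × Fin n) (θ₀ θ₁ : ℝ) (r₀ : Fin n) : RepSystem n k B where
  Ω := Σ o : Fin M, LabelChoice (B := B) M b τ σ θ₀ θ₁ o ×
    PointChoice (B := B) k M b τ σ θ₀ θ₁ o
  fin := inferInstance
  w ω := (1 / (M : ℝ)) * (labelsW M b τ σ θ₀ θ₁ ω.1 ω.2.1 *
    pointsW k M b τ σ θ₀ θ₁ ω.1 ω.2.1 ω.2.2)
  G ω := good M b τ σ θ₀ θ₁ ω.1
  ver ω := verOf k M b τ σ θ₀ θ₁ r₀ ω.1 ω.2.2

/-- Existence of representatives with small bad mass, bounded marginals and bounded joint law. -/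
theorem exists_system {n k b B M m₀ m₁ : ℕ} (hn : 0 < n) (hb : 0 < b) (hkb : k ≤ b)
    (hB : 0 < B) (hM : 0 < M) (τ : Fin n → Fin n) (σ : Fin n → Fin n × Fin n)
    (hσ : ∀ r, (σ r).1 = τ r) (hτ : (labels τ).card ≤ m₀) (hσm : (labels σ).card ≤ m₁)
    {η : ℝ} (hη : 0 < η) :
    ∃ S : RepSystem n k B,
      (∀ ω, 0 ≤ S.w ω) ∧ ∑ ω, S.w ω = 1 ∧
      (∑ ω, S.w ω * ((n : ℝ) - ∑ a ∈ S.G ω, (keyCard τ a : ℝ)) ≤
        5 * η * n + 2 * Real.sqrt (m₀ * (energy (B * M) τ - energy B τ))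
          + 4 * nonspan b (B * M) σ) ∧
      (∀ a j r, ∑ ω, S.w ω * (if a ∈ S.G ω ∧ S.ver ω a j = r then (1 : ℝ) else 0) ≤
        if key hB τ r = a then 8 * (b : ℝ) / keyCard τ a else 0) ∧
      (∀ ω, 0 < S.w ω → ∀ a ∈ S.G ω, ∀ j, key hB τ (S.ver ω a j) = a ∧
        (∀ j', σ (S.ver ω a j) = σ (S.ver ω a j')) ∧
        ∀ a' ∈ S.G ω, a.1 ≤ a'.1 → ∀ j', j < j' → S.ver ω a j < S.ver ω a' j') ∧
      (∀ (a : Fin k → Fin B × Fin n) (x : Fin k → Fin n),
        ∑ ω, S.w ω * (if ∀ i, a i ∈ S.G ω ∧ S.ver ω (a i) i = x i then (1 : ℝ) else 0) ≤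
          (2 * b * m₁ * ((B * M : ℕ) : ℝ) / (η * n)) ^ k) ∧
      (∀ ω, ∀ a ∈ S.G ω, η * n / (m₀ * B) ≤ (keyCard τ a : ℝ)) := by
  set r₀ : Fin n := ⟨0, hn⟩
  have hm₀ : 0 < m₀ := lt_of_lt_of_le
    (Finset.card_pos.2 ⟨τ r₀, Finset.mem_image.2 ⟨r₀, Finset.mem_univ _, rfl⟩⟩) hτ
  have hm₁ : 0 < m₁ := lt_of_lt_of_le
    (Finset.card_pos.2 ⟨σ r₀, Finset.mem_image.2 ⟨r₀, Finset.mem_univ _, rfl⟩⟩) hσm
  set θ₀ : ℝ := η * n / (m₀ * B) with hθ₀
  set θ₁ : ℝ := η * n / (m₁ * ((B * M : ℕ) : ℝ)) with hθ₁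
  have h₀ : 0 < θ₀ := by positivity
  have h₁ : 0 < θ₁ := by positivity
  have hMne : (M : ℝ) ≠ 0 := by positivity
  have hpos : ∀ (o : Fin M) φ v,
      0 ≤ labelsW (B := B) M b τ σ θ₀ θ₁ o φ * pointsW k M b τ σ θ₀ θ₁ o φ v := fun o φ v =>
    mul_nonneg (Finset.prod_nonneg fun a _ => labelW_nonneg M b σ θ₁ _ _ _)
      (Finset.prod_nonneg fun p _ => unif_nonneg _ _)
  refine ⟨mkSystem k M b τ σ θ₀ θ₁ r₀, ?_, ?_, ?_, ?_, ?_, ?_, ?_⟩
  · rintro ⟨o, φ, v⟩
    exact mul_nonneg (by positivity) (hpos o φ v)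
  · have h := sum_three (1 / (M : ℝ)) (labelsW (B := B) M b τ σ θ₀ θ₁)
      (pointsW k M b τ σ θ₀ θ₁) (fun _ => 1)
    simp only [mul_one, sum_pointsW hn, sum_labelsW h₀, Finset.sum_const, Finset.card_univ,
      Fintype.card_fin, nsmul_eq_mul] at h
    rw [one_div_mul_cancel hMne] at h
    exact h
  · refine le_trans (le_of_eq (sum_three (1 / (M : ℝ)) (labelsW (B := B) M b τ σ θ₀ θ₁)
      (pointsW k M b τ σ θ₀ θ₁) _)) ?_
    simp only [mkSystem, ← Finset.sum_mul, sum_pointsW hn, one_mul, sum_labelsW h₀]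
    calc _ ≤ (1 / (M : ℝ)) * ∑ o : Fin M,
          ((∑ a : Fin B × Fin n, if (keyCard τ a : ℝ) < θ₀ then (keyCard τ a : ℝ) else 0)
          + 2 * (∑ a : Fin B × Fin n, |(M : ℝ) * winCard M τ o a - keyCard τ a|)
          + 4 * M * (∑ a : Fin B × Fin n,
              ((winCard M τ o a : ℝ) - eligMass M b σ θ₁ o a))) := by
          gcongr with o _
          exact missing_le hσ hB o
      _ ≤ (1 / (M : ℝ)) * ((M : ℝ) * ((B : ℝ) * (m₀ * θ₀))
          + 2 * (M * Real.sqrt (m₀ * (energy (B * M) τ - energy B τ)))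
          + 4 * M * (nonspan b (B * M) σ + ((B * M : ℕ) : ℝ) * (m₁ * θ₁))) := by
          simp only [Finset.sum_add_distrib, ← Finset.mul_sum, Finset.sum_const, Finset.card_univ,
            Fintype.card_fin, nsmul_eq_mul]
          gcongr
          · exact sum_small_le hτ h₀.le
          · exact sum_deviation_le hτ hB hM
          · exact sum_deficit_le hσ hσm h₁.le
      _ = _ := by
          rw [hθ₀, hθ₁]
          push_cast
          field_simp
          ring
  · intro a j r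
    refine le_trans (le_of_eq (sum_three (1 / (M : ℝ)) (labelsW (B := B) M b τ σ θ₀ θ₁)
      (pointsW k M b τ σ θ₀ θ₁) _)) ?_
    refine le_trans ?_ (sum_windows_le (b := b) (τ := τ) hB hM a r)
    gcongr with o _
    exact marginal_stage hn hσ hkb hb h₀ h₁ r₀ o a j r
  · rintro ⟨o, φ, v⟩ hω a ha j
    refine support_stage hσ hkb hb hB hM h₁ r₀ o φ v (fun h => ?_) a ha j
    simp only [mkSystem, h, mul_zero, lt_irrefl] at hω
  · intro a x
    refine le_trans (le_of_eq (sum_three (1 / (M : ℝ)) (labelsW (B := B) M b τ σ θ₀ θ₁)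
      (pointsW k M b τ σ θ₀ θ₁) _)) ?_
    have e : 2 * (b : ℝ) / θ₁ = 2 * b * m₁ * ((B * M : ℕ) : ℝ) / (η * n) := by
      rw [hθ₁]; field_simp
    rw [← e]
    calc _ ≤ (1 / (M : ℝ)) * ∑ _o : Fin M, (2 * (b : ℝ) / θ₁) ^ k := by
          gcongr with o _
          exact joint_stage hn hkb h₀ h₁ r₀ o a x
      _ = _ := by
          simp only [Finset.sum_const, Finset.card_univ, Fintype.card_fin, nsmul_eq_mul]
          field_simp
  · rintro ⟨o, φ, v⟩ a ha
    exact (Finset.mem_filter.1 ha).2.1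

end Vale.Agent.P037
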