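import Vale.Agent.P037.Master

/-!
Averaging over the representatives: the inequality at one scale.
-/

namespace Vale.Agent.P037

open Finset

theorem labels_pair_card_le {n : ℕ} (τ τ1 : Fin n → Fin n) :
    (labels (fun r => (τ r, τ1 r))).card ≤ (labels τ).card * (labels τ1).card := by
  rw [← Finset.card_product]
  refine Finset.card_le_card fun p hp => ?_
  obtain ⟨r, -, rfl⟩ := Finset.mem_image.1 hp
  exact Finset.mem_product.2 ⟨Finset.mem_image.2 ⟨r, Finset.mem_univ _, rfl⟩,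
    Finset.mem_image.2 ⟨r, Finset.mem_univ _, rfl⟩⟩

/-- An average over a product of two systems. -/
theorem avg_add {α β : Type*} [Fintype α] [Fintype β] (w : α → ℝ) (w' : β → ℝ)
    (F G : α → β → ℝ) :
    ∑ a, ∑ b, w a * w' b * (F a b + G a b)
      = (∑ a, ∑ b, w a * w' b * F a b) + ∑ a, ∑ b, w a * w' b * G a b := by
  simp only [mul_add, Finset.sum_add_distrib]

theorem avg_left {α β : Type*} [Fintype α] [Fintype β] (w : α → ℝ) (w' : β → ℝ)
    (h : ∑ b, w' b = 1) (F : α → ℝ) :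
    ∑ a, ∑ b, w a * w' b * F a = ∑ a, w a * F a := by
  refine Finset.sum_congr rfl fun a _ => ?_
  rw [← Finset.sum_mul, ← Finset.mul_sum, h, mul_one]

theorem avg_right {α β : Type*} [Fintype α] [Fintype β] (w : α → ℝ) (w' : β → ℝ)
    (h : ∑ a, w a = 1) (F : β → ℝ) :
    ∑ a, ∑ b, w a * w' b * F b = ∑ b, w' b * F b := by
  rw [Finset.sum_comm]
  refine Finset.sum_congr rfl fun b _ => ?_
  rw [← Finset.sum_mul, ← Finset.sum_mul, h, one_mul]

theorem avg_assoc {α β : Type*} [Fintype α] [Fintype β] (w : α → ℝ) (w' : β → ℝ)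
    (F : α → β → ℝ) :
    ∑ a, ∑ b, w a * w' b * F a b = ∑ a, w a * ∑ b, w' b * F a b := by
  simp only [Finset.mul_sum, mul_assoc]

theorem inconsistency_le {n : ℕ} (A : Fin n → Fin n → Bool) (τ1 τc1 : Fin n → Fin n)
    (xi x₀ yj y₀ : Fin n) (hx : τ1 xi = τ1 x₀) (hy : τc1 yj = τc1 y₀) :
    neq (A xi yj) (A x₀ y₀) ≤ neq (A xi yj) (A (τ1 xi) yj) + neq (A x₀ yj) (A (τ1 x₀) yj)
      + neq (A x₀ yj) (A x₀ (τc1 yj)) + neq (A x₀ y₀) (A x₀ (τc1 y₀)) := by
  rw [hx, hy]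
  exact neq_chain _ _ _ _ _

/-- Average of the inconsistency of the versions of pairs of keys. -/
theorem expect_incons_le {n k b B : ℕ} (hk : 0 < k) (hB : 0 < B) (A : Fin n → Fin n → Bool)
    (τ τc τ1 τc1 : Fin n → Fin n) (S T : RepSystem n k B)
    (hS : ∀ a j r, ∑ ω, S.w ω * (if a ∈ S.G ω ∧ S.ver ω a j = r then (1 : ℝ) else 0) ≤
      if key hB τ r = a then 8 * (b : ℝ) / keyCard τ a else 0)
    (hT : ∀ a j r, ∑ ω, T.w ω * (if a ∈ T.G ω ∧ T.ver ω a j = r then (1 : ℝ) else 0) ≤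
      if key hB τc r = a then 8 * (b : ℝ) / keyCard τc a else 0)
    (hw : ∀ ω, 0 ≤ S.w ω) (hw' : ∀ ω, 0 ≤ T.w ω)
    (hsig : ∀ ω, 0 < S.w ω → ∀ a ∈ S.G ω, ∀ i j, τ1 (S.ver ω a i) = τ1 (S.ver ω a j))
    (hsig' : ∀ ω, 0 < T.w ω → ∀ a ∈ T.G ω, ∀ i j, τc1 (T.ver ω a i) = τc1 (T.ver ω a j))
    {θ : ℝ} (hθ0 : 0 < θ) (hθS : ∀ ω, ∀ a ∈ S.G ω, θ ≤ (keyCard τ a : ℝ))
    (hθT : ∀ ω, ∀ a ∈ T.G ω, θ ≤ (keyCard τc a : ℝ)) :
    ∑ ω, ∑ ω', S.w ω * T.w ω' * (∑ a ∈ S.G ω, ∑ c ∈ T.G ω', ∑ i, ∑ j,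
        neq (A (S.ver ω a i) (T.ver ω' c j)) (A (S.ver ω a ⟨0, hk⟩) (T.ver ω' c ⟨0, hk⟩)))
      ≤ (k : ℝ) ^ 2 * ((8 * b / θ) * (8 * b / θ))
          * (2 * ((∑ x, dis A x (τ1 x)) + ∑ x, ∑ y, neq (A x y) (A x (τc1 y)))) := by
  set L : ℝ := 8 * b / θ with hL
  have hL0 : 0 ≤ L := by positivity
  have hwL : ∀ (τ : Fin n → Fin n) (a : Fin B × Fin n), θ ≤ (keyCard τ a : ℝ) →
      (1 : ℝ) * (8 * (b : ℝ) / keyCard τ a) ≤ L := fun τ a h => by
    rw [one_mul]; exact div_le_div_of_nonneg_left (by positivity) hθ0 h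
  have hbound : ∀ (g : Fin n → Fin n → ℝ), (∀ x y, 0 ≤ g x y) → ∀ i j : Fin k,
      ∑ ω, ∑ ω', S.w ω * T.w ω' *
        (∑ a ∈ S.G ω, ∑ c ∈ T.G ω', g (S.ver ω a i) (T.ver ω' c j))
      ≤ L * L * ∑ x, ∑ y, g x y := by
    intro g hg i j
    rw [avg_assoc]
    have := expect₂_le hB τ τc S T hS hT hw hθS hθT (fun _ => 1) (fun _ => 1)
      (fun _ => zero_le_one) (fun _ => zero_le_one) (hwL τ) (hwL τc) hL0 g hg i j
    simpa only [one_mul] using this
  set z : Fin k := ⟨0, hk⟩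
  set e : Fin n → Fin n → ℝ := fun x y => neq (A x y) (A (τ1 x) y)
  set e' : Fin n → Fin n → ℝ := fun x y => neq (A x y) (A x (τc1 y))
  calc _ ≤ ∑ ω, ∑ ω', S.w ω * T.w ω' * (∑ i : Fin k, ∑ j : Fin k,
        ((∑ a ∈ S.G ω, ∑ c ∈ T.G ω', e (S.ver ω a i) (T.ver ω' c j))
        + (∑ a ∈ S.G ω, ∑ c ∈ T.G ω', e (S.ver ω a z) (T.ver ω' c j))
        + (∑ a ∈ S.G ω, ∑ c ∈ T.G ω', e' (S.ver ω a z) (T.ver ω' c j))
        + (∑ a ∈ S.G ω, ∑ c ∈ T.G ω', e' (S.ver ω a z) (T.ver ω' c z)))) := by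
        refine Finset.sum_le_sum fun ω _ => Finset.sum_le_sum fun ω' _ => ?_
        rcases (hw ω).eq_or_lt with h0 | h0
        · simp [← h0]
        rcases (hw' ω').eq_or_lt with h0' | h0'
        · simp [← h0']
        refine mul_le_mul_of_nonneg_left ?_ (mul_nonneg h0.le h0'.le)
        simp only [← Finset.sum_add_distrib]
        have hswap : ∀ F : Fin B × Fin n → Fin B × Fin n → Fin k → Fin k → ℝ,
            ∑ i, ∑ j, ∑ a ∈ S.G ω, ∑ c ∈ T.G ω', F a c i j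
              = ∑ a ∈ S.G ω, ∑ c ∈ T.G ω', ∑ i, ∑ j, F a c i j := fun F => by
          rw [Finset.sum_congr rfl (fun i _ => Finset.sum_comm), Finset.sum_comm]
          refine Finset.sum_congr rfl fun a _ => ?_
          rw [Finset.sum_congr rfl (fun i _ => Finset.sum_comm), Finset.sum_comm]
        rw [hswap]
        refine Finset.sum_le_sum fun a ha => Finset.sum_le_sum fun c hc =>
          Finset.sum_le_sum fun i _ => Finset.sum_le_sum fun j _ => ?_
        exact inconsistency_le A τ1 τc1 _ _ _ _ (hsig ω h0 a ha i z) (hsig' ω' h0' c hc j z)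
    _ = ∑ i : Fin k, ∑ j : Fin k, ∑ ω, ∑ ω', S.w ω * T.w ω' *
        ((∑ a ∈ S.G ω, ∑ c ∈ T.G ω', e (S.ver ω a i) (T.ver ω' c j))
        + (∑ a ∈ S.G ω, ∑ c ∈ T.G ω', e (S.ver ω a z) (T.ver ω' c j))
        + (∑ a ∈ S.G ω, ∑ c ∈ T.G ω', e' (S.ver ω a z) (T.ver ω' c j))
        + (∑ a ∈ S.G ω, ∑ c ∈ T.G ω', e' (S.ver ω a z) (T.ver ω' c z))) := by
        simp only [Finset.mul_sum (s := (Finset.univ : Finset (Fin k)))]
        rw [Finset.sum_congr rfl (fun ω _ => Finset.sum_comm), Finset.sum_comm]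
        refine Finset.sum_congr rfl fun i _ => ?_
        rw [Finset.sum_congr rfl (fun ω _ => Finset.sum_comm), Finset.sum_comm]
    _ ≤ ∑ _i : Fin k, ∑ _j : Fin k, (L * L * (∑ x, ∑ y, e x y) + L * L * (∑ x, ∑ y, e x y)
          + L * L * (∑ x, ∑ y, e' x y) + L * L * (∑ x, ∑ y, e' x y)) := by
        refine Finset.sum_le_sum fun i _ => Finset.sum_le_sum fun j _ => ?_
        rw [avg_add, avg_add, avg_add]
        have h1 := fun x y => neq_nonneg (A x y) (A (τ1 x) y)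
        have h2 := fun x y => neq_nonneg (A x y) (A x (τc1 y))
        gcongr ?_ + ?_ + ?_ + ?_
        · exact hbound e h1 i j
        · exact hbound e h1 z j
        · exact hbound e' h2 z j
        · exact hbound e' h2 z z
    _ = _ := by
        simp only [Finset.sum_const, Finset.card_univ, Fintype.card_fin, nsmul_eq_mul, e, e',
          sum_neq_eq_dis]
        ring

/-- Average of the pair defect. -/
theorem expect_pairDefect_le {n k b B : ℕ} (hb : 0 < b) (z : Fin k) (hB : 0 < B)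
    (A : Fin n → Fin n → Bool) (τ τc : Fin n → Fin n) (S T : RepSystem n k B)
    (hS : ∀ a j r, ∑ ω, S.w ω * (if a ∈ S.G ω ∧ S.ver ω a j = r then (1 : ℝ) else 0) ≤
      if key hB τ r = a then 8 * (b : ℝ) / keyCard τ a else 0)
    (hT : ∀ a j r, ∑ ω, T.w ω * (if a ∈ T.G ω ∧ T.ver ω a j = r then (1 : ℝ) else 0) ≤
      if key hB τc r = a then 8 * (b : ℝ) / keyCard τc a else 0)
    (hw : ∀ ω, 0 ≤ S.w ω) (hw' : ∀ ω, 0 ≤ T.w ω) (h1 : ∑ ω, S.w ω = 1) (h1' : ∑ ω, T.w ω = 1) :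
    ∑ ω, ∑ ω', S.w ω * T.w ω' * pairDefect hB z A τ τc (S.G ω) (T.G ω') (S.ver ω) (T.ver ω')
      ≤ 2 * ((8 * b) * (8 * b))
          * ((∑ x, dis A x (τ x)) + ∑ x, ∑ y, neq (A x y) (A x (τc y))) := by
  set L : ℝ := 8 * b with hL
  have hb' : (1 : ℝ) ≤ b := by exact_mod_cast hb
  have hL1 : 1 ≤ L := by rw [hL]; linarith
  have hwL : ∀ (τ : Fin n → Fin n) (a : Fin B × Fin n), (0 : ℝ) ≤ (keyCard τ a : ℝ) →
      (keyCard τ a : ℝ) * (8 * (b : ℝ) / keyCard τ a) ≤ L := fun τ a _ => by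
    rcases (Nat.cast_nonneg (α := ℝ) (keyCard τ a)).eq_or_lt with h | h
    · rw [← h]; simp only [zero_mul]; linarith
    · rw [mul_div_cancel₀ _ h.ne']
  set R₀ := ∑ x, dis A x (τ x)
  set C₀ := ∑ x, ∑ y, neq (A x y) (A x (τc y))
  calc _ ≤ ∑ ω, ∑ ω', S.w ω * T.w ω' * ((R₀
        + (∑ a ∈ S.G ω, (keyCard τ a : ℝ) * dis A (S.ver ω a z) (τ (S.ver ω a z))))
        + (∑ a ∈ S.G ω, (keyCard τ a : ℝ) *
            ∑ q, neq (A (S.ver ω a z) q) (A (S.ver ω a z) (τc q)))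
        + (∑ a ∈ S.G ω, ∑ c ∈ T.G ω', (keyCard τ a : ℝ) * keyCard τc c *
            neq (A (S.ver ω a z) (T.ver ω' c z)) (A (S.ver ω a z) (τc (T.ver ω' c z))))) := by
        refine Finset.sum_le_sum fun ω _ => Finset.sum_le_sum fun ω' _ => ?_
        exact mul_le_mul_of_nonneg_left (pairDefect_le hB z A τ τc _ _ _ _)
          (mul_nonneg (hw ω) (hw' ω'))
    _ ≤ R₀ + L * R₀ + L * C₀ + L * L * C₀ := by
        rw [avg_add, avg_add, avg_add]
        gcongr ?_ + ?_ + ?_ + ?_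
        · rw [avg_left _ _ h1' (fun _ => R₀), ← Finset.sum_mul, h1, one_mul]
        · rw [avg_left _ _ h1' (fun ω => ∑ a ∈ S.G ω,
            (keyCard τ a : ℝ) * dis A (S.ver ω a z) (τ (S.ver ω a z)))]
          exact expect_le hB τ S hS (θ := 0) (fun ω a _ => Nat.cast_nonneg _) _
            (fun a => Nat.cast_nonneg _) (hwL τ) (by linarith) (fun x => dis A x (τ x))
            (fun x => dis_nonneg A x _) z
        · rw [avg_left _ _ h1' (fun ω => ∑ a ∈ S.G ω, (keyCard τ a : ℝ) *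
            ∑ q, neq (A (S.ver ω a z) q) (A (S.ver ω a z) (τc q)))]
          exact expect_le hB τ S hS (θ := 0) (fun ω a _ => Nat.cast_nonneg _) _
            (fun a => Nat.cast_nonneg _) (hwL τ) (by linarith)
            (fun x => ∑ q, neq (A x q) (A x (τc q)))
            (fun x => Finset.sum_nonneg fun q _ => neq_nonneg _ _) z
        · rw [avg_assoc]
          exact expect₂_le hB τ τc S T hS hT hw (θ := 0) (fun ω a _ => Nat.cast_nonneg _)
            (fun ω a _ => Nat.cast_nonneg _) _ _ (fun a => Nat.cast_nonneg _)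
            (fun a => Nat.cast_nonneg _) (hwL τ) (hwL τc) (by linarith)
            (fun x y => neq (A x y) (A x (τc y))) (fun x y => neq_nonneg _ _) z z
    _ ≤ _ := by
        have hR : 0 ≤ R₀ := Finset.sum_nonneg fun x _ => dis_nonneg A x _
        have hC : 0 ≤ C₀ := Finset.sum_nonneg fun x _ => Finset.sum_nonneg fun y _ => neq_nonneg _ _
        have hLL : L ≤ L * L := le_mul_of_one_le_left (by linarith) hL1
        have := mul_le_mul_of_nonneg_right hLL hR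
        have := mul_le_mul_of_nonneg_right hLL hC
        have := mul_le_mul_of_nonneg_right (hL1.trans hLL) hR
        linarith

open scoped Classical in
/-- Average number of copies made of versions. -/
theorem expect_copies_le {n k B : ℕ} (hB : 0 < B) (H : Fin k → Fin k → Bool)
    (A : Fin n → Fin n → Bool) (τ τc : Fin n → Fin n) (S T : RepSystem n k B) {P : ℝ} (hP : 0 ≤ P)
    (hS : ∀ (a : Fin k → Fin B × Fin n) (x : Fin k → Fin n),
      ∑ ω, S.w ω * (if ∀ i, a i ∈ S.G ω ∧ S.ver ω (a i) i = x i then (1 : ℝ) else 0) ≤ P ^ k)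
    (hT : ∀ (a : Fin k → Fin B × Fin n) (x : Fin k → Fin n),
      ∑ ω, T.w ω * (if ∀ i, a i ∈ T.G ω ∧ T.ver ω (a i) i = x i then (1 : ℝ) else 0) ≤ P ^ k)
    (hw : ∀ ω, 0 ≤ S.w ω) :
    ∑ ω, ∑ ω', S.w ω * T.w ω' *
        (∑ p : {p : (Fin k → Fin n) × (Fin k → Fin n) // IsCopy H A p.1 p.2},
          (if ∀ i, key hB τ (p.1.1 i) ∈ S.G ω ∧ S.ver ω (key hB τ (p.1.1 i)) i = p.1.1 i
            then (1 : ℝ) else 0) *
          (if ∀ i, key hB τc (p.1.2 i) ∈ T.G ω' ∧ T.ver ω' (key hB τc (p.1.2 i)) i = p.1.2 i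
            then (1 : ℝ) else 0))
      ≤ copyCount H A * (P ^ k * P ^ k) := by
  classical
  rw [copyCount, Nat.card_eq_fintype_card]
  calc _ = ∑ p : {p : (Fin k → Fin n) × (Fin k → Fin n) // IsCopy H A p.1 p.2},
        (∑ ω, S.w ω * (if ∀ i, key hB τ (p.1.1 i) ∈ S.G ω ∧
            S.ver ω (key hB τ (p.1.1 i)) i = p.1.1 i then (1 : ℝ) else 0)) *
        (∑ ω', T.w ω' * (if ∀ i, key hB τc (p.1.2 i) ∈ T.G ω' ∧
            T.ver ω' (key hB τc (p.1.2 i)) i = p.1.2 i then (1 : ℝ) else 0)) := by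
        simp only [Finset.mul_sum (s := (Finset.univ : Finset
          {p : (Fin k → Fin n) × (Fin k → Fin n) // IsCopy H A p.1 p.2}))]
        rw [Finset.sum_congr rfl (fun ω _ => Finset.sum_comm), Finset.sum_comm]
        refine Finset.sum_congr rfl fun p _ => ?_
        rw [Finset.sum_mul_sum]
        exact Finset.sum_congr rfl fun ω _ => Finset.sum_congr rfl fun ω' _ => by ring
    _ ≤ ∑ _p : {p : (Fin k → Fin n) × (Fin k → Fin n) // IsCopy H A p.1 p.2},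
        P ^ k * P ^ k := by
        refine Finset.sum_le_sum fun p _ => ?_
        refine le_trans (mul_le_mul_of_nonneg_left (hT _ _) (Finset.sum_nonneg fun ω _ => ?_))
          (mul_le_mul_of_nonneg_right (hS _ _) (pow_nonneg hP _))
        exact mul_nonneg (hw ω) (by split_ifs <;> norm_num)
    _ = _ := by simp [Finset.sum_const, nsmul_eq_mul]

/-- The inequality at one scale. -/
theorem scale_bound {n k b B M m₀ m₁ : ℕ} (hk : 0 < k) (hn : 0 < n) (hb : 0 < b) (hkb : k ≤ b)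
    (hB : 0 < B) (hM : 0 < M) (H : Fin k → Fin k → Bool) (A : Fin n → Fin n → Bool)
    (τ τ1 τc τc1 : Fin n → Fin n)
    (hτ : (labels τ).card ≤ m₀) (hτc : (labels τc).card ≤ m₀)
    (hσ : (labels τ).card * (labels τ1).card ≤ m₁)
    (hσc : (labels τc).card * (labels τc1).card ≤ m₁)
    {η ε : ℝ} (hη : 0 < η) (hε : ε ≤ 1) (hfar : Far H A ε) :
    ε ≤ (10 * η * n + 2 * Real.sqrt (m₀ * (energy (B * M) τ - energy B τ))
          + 2 * Real.sqrt (m₀ * (energy (B * M) τc - energy B τc))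
          + 4 * nonspan b (B * M) (fun r => (τ r, τ1 r))
          + 4 * nonspan b (B * M) (fun r => (τc r, τc1 r))) / n
      + 2 * ((8 * b) * (8 * b))
          * ((∑ x, dis A x (τ x)) + ∑ y, dis (fun c r => A r c) y (τc y)) / (n : ℝ) ^ 2
      + (k : ℝ) ^ 2 * ((8 * b / (η * n / (m₀ * B))) * (8 * b / (η * n / (m₀ * B))))
          * (2 * ((∑ x, dis A x (τ1 x)) + ∑ y, dis (fun c r => A r c) y (τc1 y)))
      + copyCount H A * ((2 * b * m₁ * ((B * M : ℕ) : ℝ) / (η * n)) ^ k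
          * (2 * b * m₁ * ((B * M : ℕ) : ℝ) / (η * n)) ^ k) := by
  classical
  have htr : ∀ t : Fin n → Fin n,
      ∑ y, dis (fun c r => A r c) y (t y) = ∑ x, ∑ y, neq (A x y) (A x (t y)) := by
    intro t
    rw [Finset.sum_comm]
    rfl
  rw [htr τc, htr τc1]
  obtain ⟨S, hS0, hS1, hSbad, hSmarg, hSsupp, hSjoint, hSθ⟩ :=
    exists_system hn hb hkb hB hM τ (fun r => (τ r, τ1 r)) (fun r => rfl) hτ
      ((labels_pair_card_le τ τ1).trans hσ) hη
  obtain ⟨T, hT0, hT1, hTbad, hTmarg, hTsupp, hTjoint, hTθ⟩ :=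
    exists_system hn hb hkb hB hM τc (fun r => (τc r, τc1 r)) (fun r => rfl) hτc
      ((labels_pair_card_le τc τc1).trans hσc) hη
  set P : ℝ := 2 * b * m₁ * ((B * M : ℕ) : ℝ) / (η * n)
  have hm₀ : 0 < m₀ := lt_of_lt_of_le
    (Finset.card_pos.2 ⟨τ ⟨0, hn⟩, Finset.mem_image.2 ⟨_, Finset.mem_univ _, rfl⟩⟩) hτ
  have hθ0 : 0 < η * n / (m₀ * B) := by positivity
  have hinc := expect_incons_le hk hB A τ τc τ1 τc1 S T hSmarg hTmarg hS0 hT0
    (fun ω h a ha i j => congrArg Prod.snd ((hSsupp ω h a ha i).2.1 j))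
    (fun ω h a ha i j => congrArg Prod.snd ((hTsupp ω h a ha i).2.1 j)) hθ0 hSθ hTθ
  have hpd := expect_pairDefect_le hb ⟨0, hk⟩ hB A τ τc S T hSmarg hTmarg hS0 hT0 hS1 hT1
  have hcp := expect_copies_le hB H A τ τc S T (P := P) (by positivity) hSjoint hTjoint hS0
  have hn' : (0 : ℝ) < n := by exact_mod_cast hn
  by_contra hlt
  push Not at hlt
  -- the averaged objective
  set bad : S.Ω → ℝ := fun ω => (n : ℝ) - ∑ a ∈ S.G ω, (keyCard τ a : ℝ)
  set bad' : T.Ω → ℝ := fun ω => (n : ℝ) - ∑ a ∈ T.G ω, (keyCard τc a : ℝ)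
  set pd : S.Ω → T.Ω → ℝ := fun ω ω' =>
    pairDefect hB ⟨0, hk⟩ A τ τc (S.G ω) (T.G ω') (S.ver ω) (T.ver ω')
  set inc : S.Ω → T.Ω → ℝ := fun ω ω' => ∑ a ∈ S.G ω, ∑ c ∈ T.G ω', ∑ i, ∑ j,
    neq (A (S.ver ω a i) (T.ver ω' c j)) (A (S.ver ω a ⟨0, hk⟩) (T.ver ω' c ⟨0, hk⟩))
  set cp : S.Ω → T.Ω → ℝ := fun ω ω' =>
    ∑ p : {p : (Fin k → Fin n) × (Fin k → Fin n) // IsCopy H A p.1 p.2},
      (if ∀ i, key hB τ (p.1.1 i) ∈ S.G ω ∧ S.ver ω (key hB τ (p.1.1 i)) i = p.1.1 i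
        then (1 : ℝ) else 0) *
      (if ∀ i, key hB τc (p.1.2 i) ∈ T.G ω' ∧ T.ver ω' (key hB τc (p.1.2 i)) i = p.1.2 i
        then (1 : ℝ) else 0)
  set X : S.Ω × T.Ω → ℝ := fun p =>
    bad p.1 / n + bad' p.2 / n + pd p.1 p.2 / (n : ℝ) ^ 2 + inc p.1 p.2 + cp p.1 p.2
  have hEX : ∑ p : S.Ω × T.Ω, S.w p.1 * T.w p.2 * X p < ε := by
    refine lt_of_le_of_lt ?_ hlt
    rw [Fintype.sum_prod_type]
    simp only [X]
    rw [avg_add, avg_add, avg_add, avg_add, avg_left _ _ hT1 (fun ω => bad ω / n),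
      avg_right _ _ hS1 (fun ω => bad' ω / n)]
    have e1 : ∀ {α : Type} [Fintype α] (w F : α → ℝ) (c : ℝ),
        ∑ a, w a * (F a / c) = (∑ a, w a * F a) / c := fun w F c => by
      rw [Finset.sum_div]; exact Finset.sum_congr rfl fun a _ => (mul_div_assoc _ _ _).symm
    have e2 : ∑ ω, ∑ ω', S.w ω * T.w ω' * (pd ω ω' / (n : ℝ) ^ 2)
        = (∑ ω, ∑ ω', S.w ω * T.w ω' * pd ω ω') / (n : ℝ) ^ 2 := by
      rw [Finset.sum_div]; exact Finset.sum_congr rfl fun ω _ => e1 _ _ _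
    rw [e1, e1, e2]
    gcongr ?_ + ?_ + ?_ + ?_
    · rw [← add_div]
      refine div_le_div_of_nonneg_right ?_ hn'.le
      simp only [bad, bad']
      linarith
    · exact div_le_div_of_nonneg_right hpd (by positivity)
  obtain ⟨⟨ω, ω'⟩, hwp, hX⟩ := exists_lt_of_avg_lt (fun p : S.Ω × T.Ω => S.w p.1 * T.w p.2) X
    (fun p => mul_nonneg (hS0 _) (hT0 _))
    (by rw [Fintype.sum_prod_type]; simp only [← Finset.mul_sum, hT1, mul_one, hS1]) hEX
  have hω : 0 < S.w ω := (hS0 ω).lt_of_ne fun h => by simp [← h] at hwp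
  have hω' : 0 < T.w ω' := (hT0 ω').lt_of_ne fun h => by simp [← h] at hwp
  simp only [X] at hX
  have hsle : ∀ (τ : Fin n → Fin n) (G : Finset (Fin B × Fin n)),
      ∑ a ∈ G, (keyCard τ a : ℝ) ≤ n := fun τ G => by
    rw [← sum_keyCard hB τ]
    exact Finset.sum_le_sum_of_subset_of_nonneg (Finset.subset_univ _)
      fun a _ _ => Nat.cast_nonneg _
  have hbad0 : 0 ≤ bad ω / n := div_nonneg (sub_nonneg.2 (hsle τ _)) hn'.le
  have hbad0' : 0 ≤ bad' ω' / n := div_nonneg (sub_nonneg.2 (hsle τc _)) hn'.le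
  have hpd0 : 0 ≤ pd ω ω' / (n : ℝ) ^ 2 := by
    refine div_nonneg (Finset.sum_nonneg fun a _ => Finset.sum_nonneg fun c _ =>
      Finset.sum_nonneg fun r _ => Finset.sum_nonneg fun q _ => ?_) (by positivity)
    exact add_nonneg (add_nonneg (add_nonneg (neq_nonneg _ _) (neq_nonneg _ _))
      (neq_nonneg _ _)) (neq_nonneg _ _)
  have hinc0 : 0 ≤ inc ω ω' := Finset.sum_nonneg fun a _ => Finset.sum_nonneg fun c _ =>
    Finset.sum_nonneg fun i _ => Finset.sum_nonneg fun j _ => neq_nonneg _ _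
  have hcp0 : 0 ≤ cp ω ω' := Finset.sum_nonneg fun p _ => by split_ifs <;> norm_num
  have hG : (S.G ω).Nonempty := by
    rw [Finset.nonempty_iff_ne_empty]
    intro h
    have : bad ω / n = 1 := by simp only [bad, h, Finset.sum_empty, sub_zero]; field_simp
    linarith
  have hG' : (T.G ω').Nonempty := by
    rw [Finset.nonempty_iff_ne_empty]
    intro h
    have : bad' ω' / n = 1 := by simp only [bad', h, Finset.sum_empty, sub_zero]; field_simp
    linarith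
  have hcons : ∀ a ∈ S.G ω, ∀ c ∈ T.G ω', ∀ i j, A (S.ver ω a i) (T.ver ω' c j)
      = A (S.ver ω a ⟨0, hk⟩) (T.ver ω' c ⟨0, hk⟩) := by
    intro a ha c hc i j
    by_contra hne
    have h1 : 1 ≤ inc ω ω' := by
      refine le_trans ?_ (Finset.single_le_sum (fun a _ => Finset.sum_nonneg fun c _ =>
        Finset.sum_nonneg fun i _ => Finset.sum_nonneg fun j _ => neq_nonneg _ _) ha)
      refine le_trans ?_ (Finset.single_le_sum (fun c _ =>
        Finset.sum_nonneg fun i _ => Finset.sum_nonneg fun j _ => neq_nonneg _ _) hc)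
      refine le_trans ?_ (Finset.single_le_sum (fun i _ =>
        Finset.sum_nonneg fun j _ => neq_nonneg _ _) (Finset.mem_univ i))
      refine le_trans ?_ (Finset.single_le_sum (fun j _ => neq_nonneg _ _) (Finset.mem_univ j))
      simp [neq, hne]
    linarith
  obtain ⟨N, hNfree, hNd⟩ := exists_free_close hk hB H A τ τc (S.G ω) (T.G ω') (S.ver ω) (T.ver ω')
    hG hG' (fun a ha j => (hSsupp ω hω a ha j).1) (fun a ha j => (hTsupp ω' hω' a ha j).1)
    (fun a ha a' ha' hle j j' hjj => (hSsupp ω hω a ha j).2.2 a' ha' hle j' hjj)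
    (fun a ha a' ha' hle j j' hjj => (hTsupp ω' hω' a ha j).2.2 a' ha' hle j' hjj) hcons
    (fun r q hcopy hh => by
      have h1 : 1 ≤ cp ω ω' := by
        refine le_trans ?_ (Finset.single_le_sum (fun p _ => ?_)
          (Finset.mem_univ (⟨(r, q), hcopy⟩ :
            {p : (Fin k → Fin n) × (Fin k → Fin n) // IsCopy H A p.1 p.2})))
        · rw [if_pos hh.1, if_pos hh.2, mul_one]
        · split_ifs <;> norm_num
      linarith)
  have hd := hfar N hNfree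
  have hlt2 : (bad ω / n + bad' ω' / n + pd ω ω' / (n : ℝ) ^ 2) * (n : ℝ) ^ 2
      < ε * (n : ℝ) ^ 2 := mul_lt_mul_of_pos_right (by linarith) (by positivity)
  have e : (bad ω / n + bad' ω' / n + pd ω ω' / (n : ℝ) ^ 2) * (n : ℝ) ^ 2
      = bad ω * n + bad' ω' * n + pd ω ω' := by field_simp
  simp only [bad, bad', pd] at e hlt2
  linarith

end Vale.Agent.P037
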