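import Vale.Agent.P037.Prob
import Vale.Agent.P037.Potential

/-!
The three stages of the random choice of representatives: a window, a fine label for each key,
and one element in each of `k` child windows.
-/

namespace Vale.Agent.P037

open Finset

/-- The key of a row: its coarse interval and its coarse type. -/
def key {n B : ℕ} (hB : 0 < B) (τ : Fin n → Fin n) (r : Fin n) : Fin B × Fin n :=
  (⟨node B r, node_lt hB r⟩, τ r)

/-- Number of elements of a key. -/
def keyCard {n B : ℕ} (τ : Fin n → Fin n) (a : Fin B × Fin n) : ℕ := cnt B τ a.1 a.2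

theorem sum_keys {n B : ℕ} (τ : Fin n → Fin n) (g : ℕ → Fin n → ℝ)
    (hg : ∀ w t, t ∉ labels τ → g w t = 0) :
    ∑ a : Fin B × Fin n, g a.1 a.2 = ∑ w ∈ range B, ∑ t ∈ labels τ, g w t := by
  rw [Fintype.sum_prod_type]
  rw [← Fin.sum_univ_eq_sum_range (fun w => ∑ t ∈ labels τ, g w t) B]
  apply Finset.sum_congr rfl
  intro w _
  symm
  exact Finset.sum_subset (Finset.subset_univ _) (fun t _ ht => hg _ t ht)

theorem keyCard_eq {n B : ℕ} (hB : 0 < B) (τ : Fin n → Fin n) (a : Fin B × Fin n) :
    keyCard τ a = (Finset.univ.filter (fun r => key hB τ r = a)).card := by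
  simp only [keyCard, cnt, key, Prod.ext_iff, Fin.ext_iff]

theorem sum_keyCard {n B : ℕ} (hB : 0 < B) (τ : Fin n → Fin n) :
    ∑ a : Fin B × Fin n, (keyCard τ a : ℝ) = n := by
  have : ∑ a : Fin B × Fin n, keyCard τ a = n := by
    simp only [keyCard_eq hB]
    rw [← Finset.card_eq_sum_card_fiberwise (fun r _ => Finset.mem_univ _)]
    simp
  exact_mod_cast this

section Windows

variable {n B : ℕ} (M b : ℕ) (τ : Fin n → Fin n) (σ : Fin n → Fin n × Fin n) (θ₀ θ₁ : ℝ)

/-- The `o`-th window of the interval of a key. -/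
def win (o : Fin M) (a : Fin B × Fin n) : ℕ := a.1.val * M + o.val

/-- Elements of a key in a window. -/
def winCard (o : Fin M) (a : Fin B × Fin n) : ℕ := cnt (B * M) τ (win M o a) a.2

/-- Elements of a fine label in a window of a key. -/
def subCard (o : Fin M) (a : Fin B × Fin n) (s : Fin n × Fin n) : ℕ :=
  cnt (B * M) σ (win M o a) s

/-- Fine labels that are large and meet every child window. -/
noncomputable def elig (o : Fin M) (a : Fin B × Fin n) : Finset (Fin n × Fin n) :=
  (labels σ).filter (fun s => s.1 = a.2 ∧ θ₁ ≤ (subCard M σ o a s : ℝ) ∧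
    ∀ j, j < b → subCard M σ o a s ≤ 2 * b * cnt (B * M * b) σ (win M o a * b + j) s)

/-- Mass of the eligible labels. -/
noncomputable def eligMass (o : Fin M) (a : Fin B × Fin n) : ℝ :=
  ∑ s ∈ elig M b σ θ₁ o a, (subCard M σ o a s : ℝ)

/-- Keys that receive versions in a window. -/
noncomputable def good (o : Fin M) : Finset (Fin B × Fin n) :=
  Finset.univ.filter (fun a => θ₀ ≤ (keyCard τ a : ℝ) ∧
    (keyCard τ a : ℝ) ≤ 2 * M * winCard M τ o a ∧
    (winCard M τ o a : ℝ) ≤ 2 * eligMass M b σ θ₁ o a)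

/-- A child window of a fine label. -/
noncomputable def child {k : ℕ} (o : Fin M) (a : Fin B × Fin n) (s : Fin n × Fin n) (j : Fin k) :
    Finset (Fin n) :=
  Finset.univ.filter (fun r => node (B * M * b) r = win M o a * b + j.val ∧ σ r = s)

/-- Weight of a fine label. -/
noncomputable def labelW (o : Fin M) (a : Fin B × Fin n) (s : Fin n × Fin n) : ℝ :=
  if s ∈ elig M b σ θ₁ o a then (subCard M σ o a s : ℝ) / eligMass M b σ θ₁ o a else 0

/-- Uniform weight on a set, or on everything if the set is empty. -/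
noncomputable def unif (C : Finset (Fin n)) (r : Fin n) : ℝ :=
  if C.Nonempty then (if r ∈ C then 1 / (C.card : ℝ) else 0) else 1 / (n : ℝ)

theorem sum_unif (hn : 0 < n) (C : Finset (Fin n)) : ∑ r, unif C r = 1 := by
  simp only [unif]
  split_ifs with h
  · rw [Finset.sum_ite_mem, Finset.univ_inter, Finset.sum_const, nsmul_eq_mul,
      mul_one_div_cancel]
    exact_mod_cast (Finset.card_pos.2 h).ne'
  · simp [hn.ne']

theorem unif_nonneg (C : Finset (Fin n)) (r : Fin n) : 0 ≤ unif C r := by
  simp only [unif]; split_ifs <;> positivity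

theorem eligMass_nonneg (o : Fin M) (a : Fin B × Fin n) : 0 ≤ eligMass M b σ θ₁ o a :=
  Finset.sum_nonneg fun _ _ => Nat.cast_nonneg _

theorem labelW_nonneg (o : Fin M) (a : Fin B × Fin n) (s : Fin n × Fin n) :
    0 ≤ labelW M b σ θ₁ o a s := by
  simp only [labelW]
  split_ifs
  · exact div_nonneg (Nat.cast_nonneg _) (eligMass_nonneg M b σ θ₁ o a)
  · exact le_rfl

variable {M b τ σ θ₀ θ₁}

theorem eligMass_pos (h₀ : 0 < θ₀) {o : Fin M} {a : Fin B × Fin n}
    (ha : a ∈ good M b τ σ θ₀ θ₁ o) : 0 < eligMass M b σ θ₁ o a := by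
  simp only [good, Finset.mem_filter, Finset.mem_univ, true_and] at ha
  obtain ⟨h1, h2, h3⟩ := ha
  have : (0 : ℝ) < 2 * M * winCard M τ o a := lt_of_lt_of_le (lt_of_lt_of_le h₀ h1) h2
  have h4 : (0 : ℝ) < winCard M τ o a := by
    by_contra h
    push Not at h
    have : (2 : ℝ) * M * winCard M τ o a ≤ 0 :=
      mul_nonpos_of_nonneg_of_nonpos (by positivity) h
    linarith
  linarith

theorem sum_labelW (h₀ : 0 < θ₀) {o : Fin M} {a : Fin B × Fin n}
    (ha : a ∈ good M b τ σ θ₀ θ₁ o) : ∑ s, labelW M b σ θ₁ o a s = 1 := by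
  simp only [labelW, Finset.sum_ite_mem, Finset.univ_inter, ← Finset.sum_div]
  exact div_self (eligMass_pos h₀ ha).ne'

theorem subCard_pos (h₁ : 0 < θ₁) {o : Fin M} {a : Fin B × Fin n} {s : Fin n × Fin n}
    (hs : s ∈ elig M b σ θ₁ o a) : (0 : ℝ) < subCard M σ o a s := by
  simp only [elig, Finset.mem_filter] at hs
  exact lt_of_lt_of_le h₁ hs.2.2.1

theorem unif_child_le {k : ℕ} (hkb : k ≤ b) (h₁ : 0 < θ₁) {o : Fin M} {a : Fin B × Fin n}
    {s : Fin n × Fin n} (hs : s ∈ elig M b σ θ₁ o a) (j : Fin k) (r : Fin n) :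
    unif (child M b σ o a s j) r
      ≤ (if r ∈ child M b σ o a s j then 2 * (b : ℝ) / subCard M σ o a s else 0) := by
  have hyp := subCard_pos h₁ hs
  have h2 : subCard M σ o a s ≤ 2 * b * (child M b σ o a s j).card := by
    simp only [elig, Finset.mem_filter] at hs
    exact hs.2.2.2 j (lt_of_lt_of_le j.isLt hkb)
  have hne : (child M b σ o a s j).Nonempty := by
    rw [← Finset.card_pos]
    rcases Nat.eq_zero_or_pos (child M b σ o a s j).card with h | h
    · rw [h] at h2
      have : 0 < subCard M σ o a s := by exact_mod_cast hyp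
      omega
    · exact h
  simp only [unif, if_pos hne]
  split_ifs
  · rw [div_le_div_iff₀ (by exact_mod_cast Finset.card_pos.2 hne) hyp, one_mul]
    exact_mod_cast h2
  · exact le_rfl

theorem winCard_eq_sum (hσ : ∀ r, (σ r).1 = τ r) (o : Fin M) (a : Fin B × Fin n) :
    winCard M τ o a = ∑ s ∈ (labels σ).filter (fun s => s.1 = a.2), subCard M σ o a s := by
  simp only [winCard, subCard, cnt]
  rw [Finset.card_eq_sum_card_fiberwise (f := σ)
    (t := (labels σ).filter (fun s => s.1 = a.2))]
  · apply Finset.sum_congr rfl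
    intro s hs
    rw [Finset.filter_filter]
    congr 1
    apply Finset.filter_congr
    intro r _
    have := (Finset.mem_filter.1 hs).2
    constructor
    · rintro ⟨⟨h1, -⟩, h2⟩; exact ⟨h1, h2⟩
    · rintro ⟨h1, h2⟩
      exact ⟨⟨h1, by rw [← hσ r, h2, this]⟩, h2⟩
  · intro r hr
    simp only [Finset.coe_filter, Set.mem_setOf_eq, Finset.mem_univ, true_and] at hr
    simp only [Finset.coe_filter, Set.mem_setOf_eq]
    exact ⟨Finset.mem_image.2 ⟨r, Finset.mem_univ _, rfl⟩, (hσ r).trans hr.2⟩

theorem eligMass_le (hσ : ∀ r, (σ r).1 = τ r) (o : Fin M) (a : Fin B × Fin n) :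
    eligMass M b σ θ₁ o a ≤ (winCard M τ o a : ℝ) := by
  rw [winCard_eq_sum hσ, eligMass]
  push_cast
  apply Finset.sum_le_sum_of_subset_of_nonneg
  · intro s hs
    simp only [elig, Finset.mem_filter] at hs ⊢
    exact ⟨hs.1, hs.2.1⟩
  · intros; positivity

theorem missing_le (hσ : ∀ r, (σ r).1 = τ r) (hB : 0 < B) (o : Fin M) :
    (n : ℝ) - ∑ a ∈ good (B := B) M b τ σ θ₀ θ₁ o, (keyCard τ a : ℝ) ≤
      (∑ a : Fin B × Fin n, if (keyCard τ a : ℝ) < θ₀ then (keyCard τ a : ℝ) else 0)
      + 2 * (∑ a : Fin B × Fin n, |(M : ℝ) * winCard M τ o a - keyCard τ a|)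
      + 4 * M * (∑ a : Fin B × Fin n, ((winCard M τ o a : ℝ) - eligMass M b σ θ₁ o a)) := by
  rw [← sum_keyCard hB τ, ← Finset.sum_sdiff (Finset.subset_univ (good M b τ σ θ₀ θ₁ o)),
    add_sub_cancel_right]
  simp only [Finset.mul_sum, ← Finset.sum_add_distrib]
  refine le_trans (Finset.sum_le_sum (fun a ha => ?_))
    (Finset.sum_le_sum_of_subset_of_nonneg (Finset.subset_univ _) (fun a _ _ => ?_))
  · have hng := (Finset.mem_sdiff.1 ha).2
    simp only [good, Finset.mem_filter, Finset.mem_univ, true_and, not_and, not_le] at hng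
    have hk0 : (0 : ℝ) ≤ keyCard τ a := Nat.cast_nonneg _
    have habs : 0 ≤ |(M : ℝ) * winCard M τ o a - keyCard τ a| := abs_nonneg _
    have hdef : 0 ≤ 4 * (M : ℝ) * ((winCard M τ o a : ℝ) - eligMass M b σ θ₁ o a) :=
      mul_nonneg (by positivity) (sub_nonneg.2 (eligMass_le hσ o a))
    by_cases h1 : (keyCard τ a : ℝ) < θ₀
    · rw [if_pos h1]; linarith
    · rw [if_neg h1]
      by_cases h2 : (keyCard τ a : ℝ) ≤ 2 * M * winCard M τ o a
      · have h3 := hng (not_lt.1 h1) h2
        have : 2 * (M : ℝ) * winCard M τ o a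
            ≤ 4 * M * ((winCard M τ o a : ℝ) - eligMass M b σ θ₁ o a) := by
          have hM0 : (0 : ℝ) ≤ M := Nat.cast_nonneg _
          have h5 : (M : ℝ) * (2 * eligMass M b σ θ₁ o a) ≤ M * winCard M τ o a :=
            mul_le_mul_of_nonneg_left h3.le hM0
          linarith
        linarith
      · push Not at h2
        have := neg_le_abs ((M : ℝ) * winCard M τ o a - keyCard τ a)
        linarith
  · refine add_nonneg (add_nonneg ?_ ?_) ?_
    · split_ifs <;> positivity
    · positivity
    · exact mul_nonneg (by positivity) (sub_nonneg.2 (eligMass_le hσ o a))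

theorem sum_small_le {m₀ : ℕ} (hτ : (labels τ).card ≤ m₀) (h₀ : 0 ≤ θ₀) :
    (∑ a : Fin B × Fin n, if (keyCard τ a : ℝ) < θ₀ then (keyCard τ a : ℝ) else 0)
      ≤ (B : ℝ) * (m₀ * θ₀) := by
  have e := sum_keys (B := B) τ
    (fun w t => if (cnt B τ w t : ℝ) < θ₀ then (cnt B τ w t : ℝ) else 0)
    (fun w t ht => by simp [cnt_eq_zero_of_not_mem B τ w ht])
  refine le_trans (le_of_eq ?_) (le_trans (le_of_eq e) ?_)
  · exact Finset.sum_congr rfl fun a _ => if_congr Iff.rfl rfl rfl
  calc _ ≤ ∑ _w ∈ range B, ∑ _t ∈ labels τ, θ₀ := by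
        refine Finset.sum_le_sum fun w _ => Finset.sum_le_sum fun t _ => ?_
        split_ifs with h
        · exact h.le
        · exact h₀
    _ ≤ (B : ℝ) * (m₀ * θ₀) := by
        simp only [Finset.sum_const, Finset.card_range, nsmul_eq_mul]
        gcongr

theorem sum_deviation_le {m₀ : ℕ} (hτ : (labels τ).card ≤ m₀) (hB : 0 < B) (hM : 0 < M) :
    ∑ o : Fin M, ∑ a : Fin B × Fin n, |(M : ℝ) * winCard M τ o a - keyCard τ a|
      ≤ M * Real.sqrt (m₀ * (energy (B * M) τ - energy B τ)) := by
  refine le_trans (le_of_eq ?_) (deviation_le hB hM τ hτ)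
  rw [Finset.sum_comm]
  simp only [keyCard, winCard, win]
  have e := sum_keys (B := B) τ
    (fun I t => ∑ o : Fin M,
      |(M : ℝ) * cnt (B * M) τ (I * M + o.val) t - cnt B τ I t|)
    (fun w t ht => by simp [cnt_eq_zero_of_not_mem _ τ _ ht])
  rw [e]
  refine Finset.sum_congr rfl fun I _ => Finset.sum_congr rfl fun t _ => ?_
  exact Fin.sum_univ_eq_sum_range
    (fun o => |(M : ℝ) * cnt (B * M) τ (I * M + o) t - cnt B τ I t|) M

theorem sum_deficit_le (hσ : ∀ r, (σ r).1 = τ r) {m₁ : ℕ} (hσm : (labels σ).card ≤ m₁)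
    (h₁ : 0 ≤ θ₁) :
    ∑ o : Fin M, ∑ a : Fin B × Fin n, ((winCard M τ o a : ℝ) - eligMass M b σ θ₁ o a)
      ≤ nonspan b (B * M) σ + ((B * M : ℕ) : ℝ) * (m₁ * θ₁) := by
  set bd : ℕ → Fin n × Fin n → ℝ := fun w s =>
    (if ∃ j, j < b ∧ 2 * b * cnt (B * M * b) σ (w * b + j) s < cnt (B * M) σ w s then
      (cnt (B * M) σ w s : ℝ) else 0) + θ₁ with hbd
  have hle : ∀ (o : Fin M) (a : Fin B × Fin n), (winCard M τ o a : ℝ) - eligMass M b σ θ₁ o a
      ≤ ∑ s ∈ labels σ, if s.1 = a.2 then bd (win M o a) s else 0 := by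
    intro o a
    have e : (winCard M τ o a : ℝ)
        = ∑ s ∈ labels σ, if s.1 = a.2 then (subCard M σ o a s : ℝ) else 0 := by
      rw [← Finset.sum_filter]
      exact_mod_cast winCard_eq_sum hσ o a
    simp only [eligMass, elig]
    rw [e, Finset.sum_filter, ← Finset.sum_sub_distrib]
    refine Finset.sum_le_sum fun s _ => ?_
    by_cases h : s.1 = a.2
    · simp only [h, true_and, if_true, bd, subCard]
      by_cases hj : ∃ j, j < b ∧
          2 * b * cnt (B * M * b) σ (win M o a * b + j) s < cnt (B * M) σ (win M o a) s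
      · rw [if_pos hj]
        split_ifs <;> linarith [(Nat.cast_nonneg _ : (0 : ℝ) ≤ cnt (B * M) σ (win M o a) s)]
      · rw [if_neg hj]
        push Not at hj
        split_ifs with h6
        · linarith
        · have h5 : (cnt (B * M) σ (win M o a) s : ℝ) < θ₁ := by
            by_contra h7
            exact h6 ⟨not_lt.1 h7, hj⟩
          linarith
    · simp [h]
  calc _ ≤ ∑ o : Fin M, ∑ a : Fin B × Fin n,
        ∑ s ∈ labels σ, if s.1 = a.2 then bd (win M o a) s else 0 :=
        Finset.sum_le_sum fun o _ => Finset.sum_le_sum fun a _ => hle o a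
    _ = ∑ I : Fin B, ∑ o : Fin M, ∑ s ∈ labels σ, bd (I.val * M + o.val) s := by
        simp only [Fintype.sum_prod_type, win]
        rw [Finset.sum_comm]
        refine Finset.sum_congr rfl fun I _ => Finset.sum_congr rfl fun o _ => ?_
        rw [Finset.sum_comm]
        refine Finset.sum_congr rfl fun s _ => ?_
        rw [Finset.sum_ite_eq]
        simp
    _ = ∑ w ∈ range (B * M), ∑ s ∈ labels σ, bd w s := by
        rw [sum_range_mul_split, ← Fin.sum_univ_eq_sum_range
          (fun I => ∑ o ∈ range M, ∑ s ∈ labels σ, bd (I * M + o) s) B]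
        refine Finset.sum_congr rfl fun I _ => ?_
        exact Fin.sum_univ_eq_sum_range (fun o => ∑ s ∈ labels σ, bd (I.val * M + o) s) M
    _ ≤ _ := by
        simp only [bd, Finset.sum_add_distrib, Finset.sum_const, Finset.card_range,
          nsmul_eq_mul, nonspan]
        apply add_le_add le_rfl
        gcongr

theorem expected_label_le {k : ℕ} (hσ : ∀ r, (σ r).1 = τ r) (hkb : k ≤ b) (hb : 0 < b)
    (h₀ : 0 < θ₀) (h₁ : 0 < θ₁) {o : Fin M} {a : Fin B × Fin n}
    (ha : a ∈ good M b τ σ θ₀ θ₁ o) (j : Fin k) (r : Fin n) :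
    ∑ s, labelW M b σ θ₁ o a s * unif (child M b σ o a s j) r
      ≤ if node (B * M) r = win M o a ∧ τ r = a.2 then 8 * (b : ℝ) * M / keyCard τ a else 0 := by
  have hg := ha
  simp only [good, Finset.mem_filter, Finset.mem_univ, true_and] at hg
  obtain ⟨hg1, hg2, hg3⟩ := hg
  have hZ0 := eligMass_pos h₀ ha
  calc ∑ s, labelW M b σ θ₁ o a s * unif (child M b σ o a s j) r
      ≤ ∑ s, (if σ r = s then
          (if node (B * M) r = win M o a ∧ τ r = a.2 then
            2 * (b : ℝ) / eligMass M b σ θ₁ o a else 0) else 0) := by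
        refine Finset.sum_le_sum fun s _ => ?_
        simp only [labelW]
        by_cases hs : s ∈ elig M b σ θ₁ o a
        · rw [if_pos hs]
          refine (mul_le_mul_of_nonneg_left (unif_child_le hkb h₁ hs j r) (by positivity)).trans ?_
          have hyp := subCard_pos h₁ hs
          by_cases hr : r ∈ child M b σ o a s j
          · rw [if_pos hr]
            simp only [child, Finset.mem_filter, Finset.mem_univ, true_and] at hr
            rw [if_pos hr.2, if_pos]
            · apply le_of_eq; field_simp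
            · constructor
              · rw [← node_mul_div hb r, hr.1, Nat.add_comm, Nat.add_mul_div_right _ _ hb,
                  Nat.div_eq_of_lt (lt_of_lt_of_le j.isLt hkb), Nat.zero_add]
              · rw [← hσ r, hr.2]
                exact (Finset.mem_filter.1 hs).2.1
          · rw [if_neg hr, mul_zero]
            split_ifs <;> positivity
        · rw [if_neg hs, zero_mul]
          split_ifs <;> positivity
    _ = (if node (B * M) r = win M o a ∧ τ r = a.2 then
          2 * (b : ℝ) / eligMass M b σ θ₁ o a else 0) := by simp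
    _ ≤ _ := by
        split_ifs
        · have hkc : (0 : ℝ) < keyCard τ a := lt_of_lt_of_le h₀ hg1
          rw [div_le_div_iff₀ hZ0 hkc]
          have h5 : (keyCard τ a : ℝ) ≤ 4 * M * eligMass M b σ θ₁ o a := by
            have := mul_le_mul_of_nonneg_left hg3 (show (0 : ℝ) ≤ 2 * M by positivity)
            linarith
          have := mul_le_mul_of_nonneg_left h5 (show (0 : ℝ) ≤ 2 * b by positivity)
          linarith
        · exact le_rfl

theorem sum_windows_le (hB : 0 < B) (hM : 0 < M) (a : Fin B × Fin n) (r : Fin n) :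
    (1 / (M : ℝ)) * ∑ o : Fin M,
        (if node (B * M) r = win M o a ∧ τ r = a.2 then 8 * (b : ℝ) * M / keyCard τ a else 0)
      ≤ if key hB τ r = a then 8 * (b : ℝ) / keyCard τ a else 0 := by
  have hMne : (M : ℝ) ≠ 0 := by positivity
  by_cases hk' : key hB τ r = a
  · subst hk'
    rw [if_pos rfl]
    set o₀ : Fin M := ⟨node (B * M) r % M, Nat.mod_lt _ hM⟩
    rw [Finset.sum_eq_single o₀]
    · have : node (B * M) r = win M o₀ (key hB τ r) ∧ τ r = (key hB τ r).2 := by
        refine ⟨?_, rfl⟩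
        simp only [win, key, o₀]
        rw [← node_mul_div (B := B) hM r, Nat.div_add_mod']
      rw [if_pos this]
      apply le_of_eq
      field_simp
    · intro o _ ho
      rw [if_neg]
      rintro ⟨h, -⟩
      apply ho
      apply Fin.ext
      simp only [o₀]
      rw [h]
      simp only [win]
      rw [Nat.add_comm, Nat.add_mul_mod_self_right, Nat.mod_eq_of_lt o.isLt]
    · intro h
      exact absurd (Finset.mem_univ _) h
  · rw [if_neg hk', Finset.sum_eq_zero, mul_zero]
    intro o _
    rw [if_neg]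
    rintro ⟨h1, h2⟩
    apply hk'
    simp only [key, Prod.ext_iff, Fin.ext_iff]
    refine ⟨?_, Fin.ext_iff.1 h2⟩
    rw [← node_mul_div hM r, h1]
    simp only [win]
    rw [Nat.add_comm, Nat.add_mul_div_right _ _ hM, Nat.div_eq_of_lt o.isLt, Nat.zero_add]

end Windows

end Vale.Agent.P037
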